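import Crest.Agent.R187.SN.KE.B56_0
import Crest.Agent.R187.SN.KE.B56_1
import Crest.Agent.R187.SN.KE.B56_2
import Crest.Agent.R187.SN.KE.B56_3
import Crest.Agent.R187.SN.KD.NBase
import Crest.Agent.R187.SN.KD.Base

/-!
# Row 187, PLAN S, generated certificate data (mod 127), block tables (5, 6) to (5, 7)

Re-encoded (format of `SN/KDec.lean`) from the tables `KD/*.lean`.  The tables are only data: every
property is checked by the kernel elsewhere.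
-/

set_option autoImplicit false
set_option maxRecDepth 100000

namespace Crest.Agent.R187.SN.KE

open Crest.Agent.R187.SN.KD

/-- block tables (5, 6) to (5, 7) -/
noncomputable def bN_5_6 : NTr := (.nd (nat_lit 0x7090808080) vB_5_6_246 (.nd (nat_lit 0x6080a10080) vB_5_6_123 (.nd (nat_lit 0x5870c0c180) vB_5_6_61 (.nd (nat_lit 0x5080c14080) vB_5_6_30 (.nd (nat_lit 0x4890a14100) vB_5_6_15 (.nd (nat_lit 0x4870c14180) vB_5_6_7 (.nd (nat_lit 0x4080c18100) vB_5_6_3 (.nd (nat_lit 0x4060c18200) vB_5_6_1 (.nd (nat_lit 0x3060c18300) vB_5_6_0 .lf .lf) (.nd (nat_lit 0x4080c10200) vB_5_6_2 .lf .lf)) (.nd (nat_lit 0x4081018000) vB_5_6_5 (.nd (nat_lit 0x4081010100) vB_5_6_4 .lf .lf) (.nd (nat_lit 0x4860c18180) vB_5_6_6 .lf .lf))) (.nd (nat_lit 0x4880e10100) vB_5_6_11 (.nd (nat_lit 0x4880c14100) vB_5_6_9 (.nd (nat_lit 0x4880c10180) vB_5_6_8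 .lf .lf) (.nd (nat_lit 0x4880c18080) vB_5_6_10 .lf .lf)) (.nd (nat_lit 0x4881010080) vB_5_6_13 (.nd (nat_lit 0x4880e14080) vB_5_6_12 .lf .lf) (.nd (nat_lit 0x4881014000) vB_5_6_14 .lf .lf)))) (.nd (nat_lit 0x5070c10180) vB_5_6_23 (.nd (nat_lit 0x4890e14000) vB_5_6_19 (.nd (nat_lit 0x4890c14080) vB_5_6_17 (.nd (nat_lit 0x4890c0c180) vB_5_6_16 .lf .lf) (.nd (nat_lit 0x4890e0c100) vB_5_6_18 .lf .lf)) (.nd (nat_lit 0x5060c10200) vB_5_6_21 (.nd (nat_lit 0x489100c080) vB_5_6_20 .lf .lf) (.nd (nat_lit 0x5060c18100) vB_5_6_22 .lf .lf))) (.nd (nat_lit 0x5080810200) vB_5_6_27 (.nd (nat_lit 0x5070c18080) vB_5_6_25 (.nd (nat_lit 0x5070c14100) vB_5_6_24 .lf .lf) (.nd (nat_lit 0x5070e0c180) vB_5_6_26 .lf .lf)) (.nd (nat_lit 0x5080c10100) vB_5_6_29 (.nd (nat_lit 0x5080a10180) vB_5_6_28 .lf .lf) .lf)))) (.nd (nat_lit 0x509100c000) vB_5_6_46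 (.nd (nat_lit 0x5090a0c180) vB_5_6_38 (.nd (nat_lit 0x5080e14000) vB_5_6_34 (.nd (nat_lit 0x5080e0c100) vB_5_6_32 (.nd (nat_lit 0x5080c18000) vB_5_6_31 .lf .lf) (.nd (nat_lit 0x5080e10080) vB_5_6_33 .lf .lf)) (.nd (nat_lit 0x508100c080) vB_5_6_36 (.nd (nat_lit 0x5081008100) vB_5_6_35 .lf .lf) (.nd (nat_lit 0x5081010000) vB_5_6_37 .lf .lf))) (.nd (nat_lit 0x5090c14000) vB_5_6_42 (.nd (nat_lit 0x5090c0c100) vB_5_6_40 (.nd (nat_lit 0x5090a10100) vB_5_6_39 .lf .lf) (.nd (nat_lit 0x5090c10080) vB_5_6_41 .lf .lf)) (.nd (nat_lit 0x5090e10000) vB_5_6_44 (.nd (nat_lit 0x5090e0c080) vB_5_6_43 .lf .lf) (.nd (nat_lit 0x5091008080) vB_5_6_45 .lf .lf)))) (.nd (nat_lit 0x50a1008000) vB_5_6_54 (.nd (nat_lit 0x50a0c0c080) vB_5_6_50 (.nd (nat_lit 0x50a0a10080) vB_5_6_48 (.nd (nat_lit 0x50a0810100) vB_5_6_47 .lf .lf) (.nd (nat_lit 0x50a0c08100)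 vB_5_6_49 .lf .lf)) (.nd (nat_lit 0x50a0e08080) vB_5_6_52 (.nd (nat_lit 0x50a0c10000) vB_5_6_51 .lf .lf) (.nd (nat_lit 0x50a0e0c000) vB_5_6_53 .lf .lf))) (.nd (nat_lit 0x5860c14100) vB_5_6_58 (.nd (nat_lit 0x50a1400000) vB_5_6_56 (.nd (nat_lit 0x50a1204000) vB_5_6_55 .lf .lf) (.nd (nat_lit 0x5860c10180) vB_5_6_57 .lf .lf)) (.nd (nat_lit 0x5870a10180) vB_5_6_60 (.nd (nat_lit 0x5860c18080) vB_5_6_59 .lf .lf) .lf))))) (.nd (nat_lit 0x58a0810080) vB_5_6_92 (.nd (nat_lit 0x588100c000) vB_5_6_77 (.nd (nat_lit 0x5880a14080) vB_5_6_69 (.nd (nat_lit 0x5870e10080) vB_5_6_65 (.nd (nat_lit 0x5870c14080) vB_5_6_63 (.nd (nat_lit 0x5870c10100) vB_5_6_62 .lf .lf) (.nd (nat_lit 0x5870c18000) vB_5_6_64 .lf .lf)) (.nd (nat_lit 0x5880810180) vB_5_6_67 (.nd (nat_lit 0x5870e14000) vB_5_6_66 .lf .lf) (.nd (nat_lit 0x5880a10100) vB_5_6_68 .lf .lf)))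 (.nd (nat_lit 0x5880e08100) vB_5_6_73 (.nd (nat_lit 0x5880c10080) vB_5_6_71 (.nd (nat_lit 0x5880c0c100) vB_5_6_70 .lf .lf) (.nd (nat_lit 0x5880c14000) vB_5_6_72 .lf .lf)) (.nd (nat_lit 0x5880e10000) vB_5_6_75 (.nd (nat_lit 0x5880e0c080) vB_5_6_74 .lf .lf) (.nd (nat_lit 0x5881008080) vB_5_6_76 .lf .lf)))) (.nd (nat_lit 0x5890c10000) vB_5_6_85 (.nd (nat_lit 0x5890a10080) vB_5_6_81 (.nd (nat_lit 0x5890810100) vB_5_6_79 (.nd (nat_lit 0x589080c180) vB_5_6_78 .lf .lf) (.nd (nat_lit 0x5890a0c100) vB_5_6_80 .lf .lf)) (.nd (nat_lit 0x5890c08100) vB_5_6_83 (.nd (nat_lit 0x5890a14000) vB_5_6_82 .lf .lf) (.nd (nat_lit 0x5890c0c080) vB_5_6_84 .lf .lf))) (.nd (nat_lit 0x5891008000) vB_5_6_89 (.nd (nat_lit 0x5890e0c000) vB_5_6_87 (.nd (nat_lit 0x5890e08080) vB_5_6_86 .lf .lf) (.nd (nat_lit 0x5891004080) vB_5_6_88 .lf .lf)) (.nd (nat_lit 0x58a080c100)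 vB_5_6_91 (.nd (nat_lit 0x5891204000) vB_5_6_90 .lf .lf) .lf)))) (.nd (nat_lit 0x6060810200) vB_5_6_108 (.nd (nat_lit 0x58a1004000) vB_5_6_100 (.nd (nat_lit 0x58a0c08080) vB_5_6_96 (.nd (nat_lit 0x58a0a0c080) vB_5_6_94 (.nd (nat_lit 0x58a0a08100) vB_5_6_93 .lf .lf) (.nd (nat_lit 0x58a0a10000) vB_5_6_95 .lf .lf)) (.nd (nat_lit 0x58a0e04080) vB_5_6_98 (.nd (nat_lit 0x58a0c0c000) vB_5_6_97 .lf .lf) (.nd (nat_lit 0x58a0e08000) vB_5_6_99 .lf .lf))) (.nd (nat_lit 0x58b0a0c000) vB_5_6_104 (.nd (nat_lit 0x58b080c080) vB_5_6_102 (.nd (nat_lit 0x58a1200000) vB_5_6_101 .lf .lf) (.nd (nat_lit 0x58b0a08080) vB_5_6_103 .lf .lf)) (.nd (nat_lit 0x58b0c08000) vB_5_6_106 (.nd (nat_lit 0x58b0c04080) vB_5_6_105 .lf .lf) (.nd (nat_lit 0x58b0e04000) vB_5_6_107 .lf .lf)))) (.nd (nat_lit 0x6070c0c100) vB_5_6_116 (.nd (nat_lit 0x6070810180) vB_5_6_112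 (.nd (nat_lit 0x6060c14080) vB_5_6_110 (.nd (nat_lit 0x6060c10100) vB_5_6_109 .lf .lf) (.nd (nat_lit 0x6060c18000) vB_5_6_111 .lf .lf)) (.nd (nat_lit 0x6070a10100) vB_5_6_114 (.nd (nat_lit 0x6070a0c180) vB_5_6_113 .lf .lf) (.nd (nat_lit 0x6070a14080) vB_5_6_115 .lf .lf))) (.nd (nat_lit 0x6070e10000) vB_5_6_120 (.nd (nat_lit 0x6070c14000) vB_5_6_118 (.nd (nat_lit 0x6070c10080) vB_5_6_117 .lf .lf) (.nd (nat_lit 0x6070e0c080) vB_5_6_119 .lf .lf)) (.nd (nat_lit 0x6080a0c100) vB_5_6_122 (.nd (nat_lit 0x6080810100) vB_5_6_121 .lf .lf) .lf)))))) (.nd (nat_lit 0x6880e08000) vB_5_6_185 (.nd (nat_lit 0x60b0a04080) vB_5_6_154 (.nd (nat_lit 0x6090e08000) vB_5_6_139 (.nd (nat_lit 0x609080c100) vB_5_6_131 (.nd (nat_lit 0x6080c10000) vB_5_6_127 (.nd (nat_lit 0x6080c08100) vB_5_6_125 (.nd (nat_lit 0x6080a14000) vB_5_6_124 .lf .lf) (.nd (nat_lit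 0x6080c0c080) vB_5_6_126 .lf .lf)) (.nd (nat_lit 0x6080e0c000) vB_5_6_129 (.nd (nat_lit 0x6080e08080) vB_5_6_128 .lf .lf) (.nd (nat_lit 0x6081008000) vB_5_6_130 .lf .lf))) (.nd (nat_lit 0x6090a10000) vB_5_6_135 (.nd (nat_lit 0x6090a08100) vB_5_6_133 (.nd (nat_lit 0x6090810080) vB_5_6_132 .lf .lf) (.nd (nat_lit 0x6090a0c080) vB_5_6_134 .lf .lf)) (.nd (nat_lit 0x6090c0c000) vB_5_6_137 (.nd (nat_lit 0x6090c08080) vB_5_6_136 .lf .lf) (.nd (nat_lit 0x6090e04080) vB_5_6_138 .lf .lf)))) (.nd (nat_lit 0x60a0c08000) vB_5_6_147 (.nd (nat_lit 0x60a0810000) vB_5_6_143 (.nd (nat_lit 0x60a0808100) vB_5_6_141 (.nd (nat_lit 0x6091004000) vB_5_6_140 .lf .lf) (.nd (nat_lit 0x60a080c080) vB_5_6_142 .lf .lf)) (.nd (nat_lit 0x60a0a0c000) vB_5_6_145 (.nd (nat_lit 0x60a0a08080) vB_5_6_144 .lf .lf) (.nd (nat_lit 0x60a0c04080) vB_5_6_146 .lf .lf))) (.nd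 (nat_lit 0x60b060c080) vB_5_6_151 (.nd (nat_lit 0x60a1000000) vB_5_6_149 (.nd (nat_lit 0x60a0e04000) vB_5_6_148 .lf .lf) (.nd (nat_lit 0x60b0608100) vB_5_6_150 .lf .lf)) (.nd (nat_lit 0x60b080c000) vB_5_6_153 (.nd (nat_lit 0x60b0808080) vB_5_6_152 .lf .lf) .lf)))) (.nd (nat_lit 0x6870a10080) vB_5_6_170 (.nd (nat_lit 0x60c0c00000) vB_5_6_162 (.nd (nat_lit 0x60c0408100) vB_5_6_158 (.nd (nat_lit 0x60b0c04000) vB_5_6_156 (.nd (nat_lit 0x60b0a08000) vB_5_6_155 .lf .lf) (.nd (nat_lit 0x60b0e00000) vB_5_6_157 .lf .lf)) (.nd (nat_lit 0x60c0808000) vB_5_6_160 (.nd (nat_lit 0x60c0608080) vB_5_6_159 .lf .lf) (.nd (nat_lit 0x60c0a04000) vB_5_6_161 .lf .lf))) (.nd (nat_lit 0x6860c10080) vB_5_6_166 (.nd (nat_lit 0x6860a10100) vB_5_6_164 (.nd (nat_lit 0x6860810180) vB_5_6_163 .lf .lf) (.nd (nat_lit 0x6860c0c100) vB_5_6_165 .lf .lf)) (.nd (nat_lit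 0x6870810100) vB_5_6_168 (.nd (nat_lit 0x6860c14000) vB_5_6_167 .lf .lf) (.nd (nat_lit 0x6870a0c100) vB_5_6_169 .lf .lf)))) (.nd (nat_lit 0x6880810080) vB_5_6_178 (.nd (nat_lit 0x6870c10000) vB_5_6_174 (.nd (nat_lit 0x6870c08100) vB_5_6_172 (.nd (nat_lit 0x6870a14000) vB_5_6_171 .lf .lf) (.nd (nat_lit 0x6870c0c080) vB_5_6_173 .lf .lf)) (.nd (nat_lit 0x6870e0c000) vB_5_6_176 (.nd (nat_lit 0x6870e08080) vB_5_6_175 .lf .lf) (.nd (nat_lit 0x688080c100) vB_5_6_177 .lf .lf))) (.nd (nat_lit 0x6880c08080) vB_5_6_182 (.nd (nat_lit 0x6880a0c080) vB_5_6_180 (.nd (nat_lit 0x6880a08100) vB_5_6_179 .lf .lf) (.nd (nat_lit 0x6880a10000) vB_5_6_181 .lf .lf)) (.nd (nat_lit 0x6880e04080) vB_5_6_184 (.nd (nat_lit 0x6880c0c000) vB_5_6_183 .lf .lf) .lf))))) (.nd (nat_lit 0x68d0404080) vB_5_6_216 (.nd (nat_lit 0x68a0a04080) vB_5_6_201 (.nd (nat_lit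 0x6890c04080) vB_5_6_193 (.nd (nat_lit 0x689080c080) vB_5_6_189 (.nd (nat_lit 0x689060c100) vB_5_6_187 (.nd (nat_lit 0x6881004000) vB_5_6_186 .lf .lf) (.nd (nat_lit 0x6890808100) vB_5_6_188 .lf .lf)) (.nd (nat_lit 0x6890a08080) vB_5_6_191 (.nd (nat_lit 0x6890810000) vB_5_6_190 .lf .lf) (.nd (nat_lit 0x6890a0c000) vB_5_6_192 .lf .lf))) (.nd (nat_lit 0x68a0608100) vB_5_6_197 (.nd (nat_lit 0x6890e04000) vB_5_6_195 (.nd (nat_lit 0x6890c08000) vB_5_6_194 .lf .lf) (.nd (nat_lit 0x6891000000) vB_5_6_196 .lf .lf)) (.nd (nat_lit 0x68a0808080) vB_5_6_199 (.nd (nat_lit 0x68a060c080) vB_5_6_198 .lf .lf) (.nd (nat_lit 0x68a080c000) vB_5_6_200 .lf .lf)))) (.nd (nat_lit 0x68b0a04000) vB_5_6_209 (.nd (nat_lit 0x68b0608080) vB_5_6_205 (.nd (nat_lit 0x68a0c04000) vB_5_6_203 (.nd (nat_lit 0x68a0a08000) vB_5_6_202 .lf .lf) (.nd (nat_lit 0x68a0e00000)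 vB_5_6_204 .lf .lf)) (.nd (nat_lit 0x68b0804080) vB_5_6_207 (.nd (nat_lit 0x68b060c000) vB_5_6_206 .lf .lf) (.nd (nat_lit 0x68b0808000) vB_5_6_208 .lf .lf))) (.nd (nat_lit 0x68c0608000) vB_5_6_213 (.nd (nat_lit 0x68c0408080) vB_5_6_211 (.nd (nat_lit 0x68b0c00000) vB_5_6_210 .lf .lf) (.nd (nat_lit 0x68c0604080) vB_5_6_212 .lf .lf)) (.nd (nat_lit 0x68c0a00000) vB_5_6_215 (.nd (nat_lit 0x68c0804000) vB_5_6_214 .lf .lf) .lf)))) (.nd (nat_lit 0x7070c08080) vB_5_6_231 (.nd (nat_lit 0x7060c0c080) vB_5_6_224 (.nd (nat_lit 0x7060810100) vB_5_6_220 (.nd (nat_lit 0x68d0800000) vB_5_6_218 (.nd (nat_lit 0x68d0604000) vB_5_6_217 .lf .lf) (.nd (nat_lit 0x7040810200) vB_5_6_219 .lf .lf)) (.nd (nat_lit 0x7060a10080) vB_5_6_222 (.nd (nat_lit 0x7060a0c100) vB_5_6_221 .lf .lf) (.nd (nat_lit 0x7060c08100) vB_5_6_223 .lf .lf))) (.nd (nat_lit 0x7070a08100)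 vB_5_6_228 (.nd (nat_lit 0x707080c100) vB_5_6_226 (.nd (nat_lit 0x7060c10000) vB_5_6_225 .lf .lf) (.nd (nat_lit 0x7070810080) vB_5_6_227 .lf .lf)) (.nd (nat_lit 0x7070a10000) vB_5_6_230 (.nd (nat_lit 0x7070a0c080) vB_5_6_229 .lf .lf) .lf))) (.nd (nat_lit 0x7080a0c000) vB_5_6_239 (.nd (nat_lit 0x7080808100) vB_5_6_235 (.nd (nat_lit 0x7070e04080) vB_5_6_233 (.nd (nat_lit 0x7070c0c000) vB_5_6_232 .lf .lf) (.nd (nat_lit 0x7070e08000) vB_5_6_234 .lf .lf)) (.nd (nat_lit 0x7080810000) vB_5_6_237 (.nd (nat_lit 0x708080c080) vB_5_6_236 .lf .lf) (.nd (nat_lit 0x7080a08080) vB_5_6_238 .lf .lf))) (.nd (nat_lit 0x7081000000) vB_5_6_243 (.nd (nat_lit 0x7080c08000) vB_5_6_241 (.nd (nat_lit 0x7080c04080) vB_5_6_240 .lf .lf) (.nd (nat_lit 0x7080e04000) vB_5_6_242 .lf .lf)) (.nd (nat_lit 0x709060c080) vB_5_6_245 (.nd (nat_lit 0x7090608100) vB_5_6_244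 .lf .lf) .lf))))))) (.nd (nat_lit 0x887060c000) vB_5_6_369 (.nd (nat_lit 0x78b0408000) vB_5_6_308 (.nd (nat_lit 0x7860c08080) vB_5_6_277 (.nd (nat_lit 0x70b0804000) vB_5_6_262 (.nd (nat_lit 0x70a060c000) vB_5_6_254 (.nd (nat_lit 0x7090c04000) vB_5_6_250 (.nd (nat_lit 0x7090a04080) vB_5_6_248 (.nd (nat_lit 0x709080c000) vB_5_6_247 .lf .lf) (.nd (nat_lit 0x7090a08000) vB_5_6_249 .lf .lf)) (.nd (nat_lit 0x70a0408100) vB_5_6_252 (.nd (nat_lit 0x7090e00000) vB_5_6_251 .lf .lf) (.nd (nat_lit 0x70a0608080) vB_5_6_253 .lf .lf))) (.nd (nat_lit 0x70a0c00000) vB_5_6_258 (.nd (nat_lit 0x70a0808000) vB_5_6_256 (.nd (nat_lit 0x70a0804080) vB_5_6_255 .lf .lf) (.nd (nat_lit 0x70a0a04000) vB_5_6_257 .lf .lf)) (.nd (nat_lit 0x70b0604080) vB_5_6_260 (.nd (nat_lit 0x70b0408080) vB_5_6_259 .lf .lf) (.nd (nat_lit 0x70b0608000) vB_5_6_261 .lf .lf))))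 (.nd (nat_lit 0x70e0400000) vB_5_6_270 (.nd (nat_lit 0x70c0604000) vB_5_6_266 (.nd (nat_lit 0x70c0404080) vB_5_6_264 (.nd (nat_lit 0x70b0a00000) vB_5_6_263 .lf .lf) (.nd (nat_lit 0x70c0408000) vB_5_6_265 .lf .lf)) (.nd (nat_lit 0x70d0404000) vB_5_6_268 (.nd (nat_lit 0x70c0800000) vB_5_6_267 .lf .lf) (.nd (nat_lit 0x70d0600000) vB_5_6_269 .lf .lf))) (.nd (nat_lit 0x7860a08100) vB_5_6_274 (.nd (nat_lit 0x786080c100) vB_5_6_272 (.nd (nat_lit 0x7850810100) vB_5_6_271 .lf .lf) (.nd (nat_lit 0x7860810080) vB_5_6_273 .lf .lf)) (.nd (nat_lit 0x7860a10000) vB_5_6_276 (.nd (nat_lit 0x7860a0c080) vB_5_6_275 .lf .lf) .lf)))) (.nd (nat_lit 0x7880c04000) vB_5_6_293 (.nd (nat_lit 0x7870c08000) vB_5_6_285 (.nd (nat_lit 0x7870810000) vB_5_6_281 (.nd (nat_lit 0x7870808100) vB_5_6_279 (.nd (nat_lit 0x7860c0c000) vB_5_6_278 .lf .lf) (.nd (nat_lit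 0x787080c080) vB_5_6_280 .lf .lf)) (.nd (nat_lit 0x7870a0c000) vB_5_6_283 (.nd (nat_lit 0x7870a08080) vB_5_6_282 .lf .lf) (.nd (nat_lit 0x7870c04080) vB_5_6_284 .lf .lf))) (.nd (nat_lit 0x7880808080) vB_5_6_289 (.nd (nat_lit 0x7880608100) vB_5_6_287 (.nd (nat_lit 0x7870e04000) vB_5_6_286 .lf .lf) (.nd (nat_lit 0x788060c080) vB_5_6_288 .lf .lf)) (.nd (nat_lit 0x7880a04080) vB_5_6_291 (.nd (nat_lit 0x788080c000) vB_5_6_290 .lf .lf) (.nd (nat_lit 0x7880a08000) vB_5_6_292 .lf .lf)))) (.nd (nat_lit 0x7890c00000) vB_5_6_301 (.nd (nat_lit 0x789060c000) vB_5_6_297 (.nd (nat_lit 0x7890408100) vB_5_6_295 (.nd (nat_lit 0x7880e00000) vB_5_6_294 .lf .lf) (.nd (nat_lit 0x7890608080) vB_5_6_296 .lf .lf)) (.nd (nat_lit 0x7890808000) vB_5_6_299 (.nd (nat_lit 0x7890804080) vB_5_6_298 .lf .lf) (.nd (nat_lit 0x7890a04000) vB_5_6_300 .lf .lf))) (.nd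 (nat_lit 0x78a0804000) vB_5_6_305 (.nd (nat_lit 0x78a0604080) vB_5_6_303 (.nd (nat_lit 0x78a0408080) vB_5_6_302 .lf .lf) (.nd (nat_lit 0x78a0608000) vB_5_6_304 .lf .lf)) (.nd (nat_lit 0x78b0404080) vB_5_6_307 (.nd (nat_lit 0x78a0a00000) vB_5_6_306 .lf .lf) .lf))))) (.nd (nat_lit 0x8080c00000) vB_5_6_339 (.nd (nat_lit 0x8060c08000) vB_5_6_324 (.nd (nat_lit 0x8040810100) vB_5_6_316 (.nd (nat_lit 0x78c0600000) vB_5_6_312 (.nd (nat_lit 0x78b0800000) vB_5_6_310 (.nd (nat_lit 0x78b0604000) vB_5_6_309 .lf .lf) (.nd (nat_lit 0x78c0404000) vB_5_6_311 .lf .lf)) (.nd (nat_lit 0x78d0400000) vB_5_6_314 (.nd (nat_lit 0x78d0204000) vB_5_6_313 .lf .lf) (.nd (nat_lit 0x78e0200000) vB_5_6_315 .lf .lf))) (.nd (nat_lit 0x806080c080) vB_5_6_320 (.nd (nat_lit 0x8050a0c080) vB_5_6_318 (.nd (nat_lit 0x8050810080) vB_5_6_317 .lf .lf) (.nd (nat_lit 0x8060808100)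 vB_5_6_319 .lf .lf)) (.nd (nat_lit 0x8060a08080) vB_5_6_322 (.nd (nat_lit 0x8060810000) vB_5_6_321 .lf .lf) (.nd (nat_lit 0x8060a0c000) vB_5_6_323 .lf .lf)))) (.nd (nat_lit 0x8070e00000) vB_5_6_332 (.nd (nat_lit 0x807080c000) vB_5_6_328 (.nd (nat_lit 0x807060c080) vB_5_6_326 (.nd (nat_lit 0x8070608100) vB_5_6_325 .lf .lf) (.nd (nat_lit 0x8070808080) vB_5_6_327 .lf .lf)) (.nd (nat_lit 0x8070a08000) vB_5_6_330 (.nd (nat_lit 0x8070a04080) vB_5_6_329 .lf .lf) (.nd (nat_lit 0x8070c04000) vB_5_6_331 .lf .lf))) (.nd (nat_lit 0x8080804080) vB_5_6_336 (.nd (nat_lit 0x8080608080) vB_5_6_334 (.nd (nat_lit 0x8080408100) vB_5_6_333 .lf .lf) (.nd (nat_lit 0x808060c000) vB_5_6_335 .lf .lf)) (.nd (nat_lit 0x8080a04000) vB_5_6_338 (.nd (nat_lit 0x8080808000) vB_5_6_337 .lf .lf) .lf)))) (.nd (nat_lit 0x80d0200000) vB_5_6_354 (.nd (nat_lit 0x80a0604000)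 vB_5_6_347 (.nd (nat_lit 0x8090804000) vB_5_6_343 (.nd (nat_lit 0x8090604080) vB_5_6_341 (.nd (nat_lit 0x8090408080) vB_5_6_340 .lf .lf) (.nd (nat_lit 0x8090608000) vB_5_6_342 .lf .lf)) (.nd (nat_lit 0x80a0404080) vB_5_6_345 (.nd (nat_lit 0x8090a00000) vB_5_6_344 .lf .lf) (.nd (nat_lit 0x80a0408000) vB_5_6_346 .lf .lf))) (.nd (nat_lit 0x80b0600000) vB_5_6_351 (.nd (nat_lit 0x80b0204080) vB_5_6_349 (.nd (nat_lit 0x80a0800000) vB_5_6_348 .lf .lf) (.nd (nat_lit 0x80b0404000) vB_5_6_350 .lf .lf)) (.nd (nat_lit 0x80c0400000) vB_5_6_353 (.nd (nat_lit 0x80c0204000) vB_5_6_352 .lf .lf) .lf))) (.nd (nat_lit 0x8860808080) vB_5_6_362 (.nd (nat_lit 0x885080c080) vB_5_6_358 (.nd (nat_lit 0x8840810080) vB_5_6_356 (.nd (nat_lit 0x80e0000000) vB_5_6_355 .lf .lf) (.nd (nat_lit 0x8850808100) vB_5_6_357 .lf .lf)) (.nd (nat_lit 0x8850a08080) vB_5_6_360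 (.nd (nat_lit 0x8850810000) vB_5_6_359 .lf .lf) (.nd (nat_lit 0x8860608100) vB_5_6_361 .lf .lf))) (.nd (nat_lit 0x8860c04000) vB_5_6_366 (.nd (nat_lit 0x8860a04080) vB_5_6_364 (.nd (nat_lit 0x886080c000) vB_5_6_363 .lf .lf) (.nd (nat_lit 0x8860a08000) vB_5_6_365 .lf .lf)) (.nd (nat_lit 0x8870608080) vB_5_6_368 (.nd (nat_lit 0x8870408100) vB_5_6_367 .lf .lf) .lf)))))) (.nd (nat_lit 0x9870800000) vB_5_6_431 (.nd (nat_lit 0x9060a04000) vB_5_6_400 (.nd (nat_lit 0x88b0204000) vB_5_6_385 (.nd (nat_lit 0x8880804000) vB_5_6_377 (.nd (nat_lit 0x8870c00000) vB_5_6_373 (.nd (nat_lit 0x8870808000) vB_5_6_371 (.nd (nat_lit 0x8870804080) vB_5_6_370 .lf .lf) (.nd (nat_lit 0x8870a04000) vB_5_6_372 .lf .lf)) (.nd (nat_lit 0x8880604080) vB_5_6_375 (.nd (nat_lit 0x8880408080) vB_5_6_374 .lf .lf) (.nd (nat_lit 0x8880608000) vB_5_6_376 .lf .lf)))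 (.nd (nat_lit 0x8890604000) vB_5_6_381 (.nd (nat_lit 0x8890404080) vB_5_6_379 (.nd (nat_lit 0x8880a00000) vB_5_6_378 .lf .lf) (.nd (nat_lit 0x8890408000) vB_5_6_380 .lf .lf)) (.nd (nat_lit 0x88a0404000) vB_5_6_383 (.nd (nat_lit 0x8890800000) vB_5_6_382 .lf .lf) (.nd (nat_lit 0x88a0600000) vB_5_6_384 .lf .lf)))) (.nd (nat_lit 0x9050a04080) vB_5_6_393 (.nd (nat_lit 0x9040808100) vB_5_6_389 (.nd (nat_lit 0x88c0200000) vB_5_6_387 (.nd (nat_lit 0x88b0400000) vB_5_6_386 .lf .lf) (.nd (nat_lit 0x88d0000000) vB_5_6_388 .lf .lf)) (.nd (nat_lit 0x9050808080) vB_5_6_391 (.nd (nat_lit 0x9040810000) vB_5_6_390 .lf .lf) (.nd (nat_lit 0x905080c000) vB_5_6_392 .lf .lf))) (.nd (nat_lit 0x906060c000) vB_5_6_397 (.nd (nat_lit 0x9060408100) vB_5_6_395 (.nd (nat_lit 0x9050a08000) vB_5_6_394 .lf .lf) (.nd (nat_lit 0x9060608080) vB_5_6_396 .lf .lf))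 (.nd (nat_lit 0x9060808000) vB_5_6_399 (.nd (nat_lit 0x9060804080) vB_5_6_398 .lf .lf) .lf)))) (.nd (nat_lit 0x90c0000000) vB_5_6_416 (.nd (nat_lit 0x9080408000) vB_5_6_408 (.nd (nat_lit 0x9070608000) vB_5_6_404 (.nd (nat_lit 0x9070408080) vB_5_6_402 (.nd (nat_lit 0x9060c00000) vB_5_6_401 .lf .lf) (.nd (nat_lit 0x9070604080) vB_5_6_403 .lf .lf)) (.nd (nat_lit 0x9070a00000) vB_5_6_406 (.nd (nat_lit 0x9070804000) vB_5_6_405 .lf .lf) (.nd (nat_lit 0x9080404080) vB_5_6_407 .lf .lf))) (.nd (nat_lit 0x9090600000) vB_5_6_412 (.nd (nat_lit 0x9080800000) vB_5_6_410 (.nd (nat_lit 0x9080604000) vB_5_6_409 .lf .lf) (.nd (nat_lit 0x9090404000) vB_5_6_411 .lf .lf)) (.nd (nat_lit 0x90a0400000) vB_5_6_414 (.nd (nat_lit 0x90a0204000) vB_5_6_413 .lf .lf) (.nd (nat_lit 0x90b0200000) vB_5_6_415 .lf .lf)))) (.nd (nat_lit 0x9860408080) vB_5_6_424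 (.nd (nat_lit 0x9850608080) vB_5_6_420 (.nd (nat_lit 0x984080c000) vB_5_6_418 (.nd (nat_lit 0x9840808080) vB_5_6_417 .lf .lf) (.nd (nat_lit 0x9850408100) vB_5_6_419 .lf .lf)) (.nd (nat_lit 0x9850808000) vB_5_6_422 (.nd (nat_lit 0x9850804080) vB_5_6_421 .lf .lf) (.nd (nat_lit 0x9850a04000) vB_5_6_423 .lf .lf))) (.nd (nat_lit 0x9870404080) vB_5_6_428 (.nd (nat_lit 0x9860804000) vB_5_6_426 (.nd (nat_lit 0x9860608000) vB_5_6_425 .lf .lf) (.nd (nat_lit 0x9860a00000) vB_5_6_427 .lf .lf)) (.nd (nat_lit 0x9870604000) vB_5_6_430 (.nd (nat_lit 0x9870408000) vB_5_6_429 .lf .lf) .lf))))) (.nd (nat_lit 0xa870400000) vB_5_6_462 (.nd (nat_lit 0xa070404000) vB_5_6_447 (.nd (nat_lit 0xa040808000) vB_5_6_439 (.nd (nat_lit 0x9890400000) vB_5_6_435 (.nd (nat_lit 0x9880600000) vB_5_6_433 (.nd (nat_lit 0x9880404000) vB_5_6_432 .lf .lf) (.nd (nat_lit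 0x9890204000) vB_5_6_434 .lf .lf)) (.nd (nat_lit 0x98b0000000) vB_5_6_437 (.nd (nat_lit 0x98a0200000) vB_5_6_436 .lf .lf) (.nd (nat_lit 0xa040408100) vB_5_6_438 .lf .lf))) (.nd (nat_lit 0xa050804000) vB_5_6_443 (.nd (nat_lit 0xa050604080) vB_5_6_441 (.nd (nat_lit 0xa050408080) vB_5_6_440 .lf .lf) (.nd (nat_lit 0xa050608000) vB_5_6_442 .lf .lf)) (.nd (nat_lit 0xa060604000) vB_5_6_445 (.nd (nat_lit 0xa060408000) vB_5_6_444 .lf .lf) (.nd (nat_lit 0xa060800000) vB_5_6_446 .lf .lf)))) (.nd (nat_lit 0xa840804000) vB_5_6_455 (.nd (nat_lit 0xa090200000) vB_5_6_451 (.nd (nat_lit 0xa080204000) vB_5_6_449 (.nd (nat_lit 0xa070600000) vB_5_6_448 .lf .lf) (.nd (nat_lit 0xa080400000) vB_5_6_450 .lf .lf)) (.nd (nat_lit 0xa840408080) vB_5_6_453 (.nd (nat_lit 0xa0a0000000) vB_5_6_452 .lf .lf) (.nd (nat_lit 0xa840608000) vB_5_6_454 .lf .lf))) (.nd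 (nat_lit 0xa860404000) vB_5_6_459 (.nd (nat_lit 0xa850604000) vB_5_6_457 (.nd (nat_lit 0xa850408000) vB_5_6_456 .lf .lf) (.nd (nat_lit 0xa850800000) vB_5_6_458 .lf .lf)) (.nd (nat_lit 0xa870204000) vB_5_6_461 (.nd (nat_lit 0xa860600000) vB_5_6_460 .lf .lf) .lf)))) (.nd (nat_lit 0xb850400000) vB_5_6_477 (.nd (nat_lit 0xb050600000) vB_5_6_470 (.nd (nat_lit 0xb040408000) vB_5_6_466 (.nd (nat_lit 0xa890000000) vB_5_6_464 (.nd (nat_lit 0xa880200000) vB_5_6_463 .lf .lf) (.nd (nat_lit 0xb020408100) vB_5_6_465 .lf .lf)) (.nd (nat_lit 0xb040800000) vB_5_6_468 (.nd (nat_lit 0xb040604000) vB_5_6_467 .lf .lf) (.nd (nat_lit 0xb050404000) vB_5_6_469 .lf .lf))) (.nd (nat_lit 0xb830408000) vB_5_6_474 (.nd (nat_lit 0xb070200000) vB_5_6_472 (.nd (nat_lit 0xb060400000) vB_5_6_471 .lf .lf) (.nd (nat_lit 0xb080000000) vB_5_6_473 .lf .lf)) (.nd (nat_lit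 0xb840600000) vB_5_6_476 (.nd (nat_lit 0xb840404000) vB_5_6_475 .lf .lf) .lf))) (.nd (nat_lit 0xc840200000) vB_5_6_485 (.nd (nat_lit 0xc040400000) vB_5_6_481 (.nd (nat_lit 0xb870000000) vB_5_6_479 (.nd (nat_lit 0xb860200000) vB_5_6_478 .lf .lf) (.nd (nat_lit 0xc020408000) vB_5_6_480 .lf .lf)) (.nd (nat_lit 0xc060000000) vB_5_6_483 (.nd (nat_lit 0xc050200000) vB_5_6_482 .lf .lf) (.nd (nat_lit 0xc830400000) vB_5_6_484 .lf .lf))) (.nd (nat_lit 0xd830000000) vB_5_6_489 (.nd (nat_lit 0xd020400000) vB_5_6_487 (.nd (nat_lit 0xc850000000) vB_5_6_486 .lf .lf) (.nd (nat_lit 0xd040000000) vB_5_6_488 .lf .lf)) (.nd (nat_lit 0xf000000000) vB_5_6_491 (.nd (nat_lit 0xe020000000) vB_5_6_490 .lf .lf) .lf))))))))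

end Crest.Agent.R187.SN.KE
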