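import Crest.Agent.R187.SN.KE.V57_0
import Crest.Agent.R187.SN.KE.V57_1
import Crest.Agent.R187.SN.KE.V57_2
import Crest.Agent.R187.SN.KE.V57_3
import Crest.Agent.R187.SN.KD.NBase
import Crest.Agent.R187.SN.KD.Base

/-!
# Row 187, PLAN S, generated certificate data (mod 127), level (5, 7)

Re-encoded (format of `SN/KDec.lean`) from the tables `KD/*.lean`.  The tables are only data: every
property is checked by the kernel elsewhere.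
-/

set_option autoImplicit false
set_option maxRecDepth 100000

namespace Crest.Agent.R187.SN.KE

open Crest.Agent.R187.SN.KD

/-- `V` tables of level (5, 7) -/
noncomputable def gV_5_7 : Tr := (.nd (nat_lit 0x80b0808100) vV_5_7_450 (.nd (nat_lit 0x7070c10200) vV_5_7_225 (.nd (nat_lit 0x60a140c000) vV_5_7_112 (.nd (nat_lit 0x58a1214000) vV_5_7_56 (.nd (nat_lit 0x5881014180) vV_5_7_28 (.nd (nat_lit 0x50a0e18100) vV_5_7_14 (.nd (nat_lit 0x5081020080) vV_5_7_7 (.nd (nat_lit 0x5080c18280) vV_5_7_3 (.nd (nat_lit 0x4881018200) vV_5_7_1 (.nd (nat_lit 0x4081020180) vV_5_7_0 .lf .lf) (.nd (nat_lit 0x4890e14280) vV_5_7_2 .lf .lf)) (.nd (nat_lit 0x5081018180) vV_5_7_5 (.nd (nat_lit 0x5081014200) vV_5_7_4 .lf .lf) (.nd (nat_lit 0x508101c100) vV_5_7_6 .lf .lf))) (.nd (nat_lit 0x5091018100) vV_5_7_11 (.nd (nat_lit 0x5090e18180) vV_5_7_9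 (.nd (nat_lit 0x5090c18200) vV_5_7_8 .lf .lf) (.nd (nat_lit 0x5091014180) vV_5_7_10 .lf .lf)) (.nd (nat_lit 0x50a0e10200) vV_5_7_13 (.nd (nat_lit 0x50a0c18180) vV_5_7_12 .lf .lf) .lf))) (.nd (nat_lit 0x50a1410080) vV_5_7_21 (.nd (nat_lit 0x50a101c000) vV_5_7_18 (.nd (nat_lit 0x50a1014100) vV_5_7_16 (.nd (nat_lit 0x50a1010180) vV_5_7_15 .lf .lf) (.nd (nat_lit 0x50a1018080) vV_5_7_17 .lf .lf)) (.nd (nat_lit 0x50a1218000) vV_5_7_20 (.nd (nat_lit 0x50a1210100) vV_5_7_19 .lf .lf) .lf)) (.nd (nat_lit 0x5880e14200) vV_5_7_25 (.nd (nat_lit 0x5860c18300) vV_5_7_23 (.nd (nat_lit 0x50a1414000) vV_5_7_22 .lf .lf) (.nd (nat_lit 0x5880c18200) vV_5_7_24 .lf .lf)) (.nd (nat_lit 0x5881010200) vV_5_7_27 (.nd (nat_lit 0x5880e18180) vV_5_7_26 .lf .lf) .lf)))) (.nd (nat_lit 0x5891214080) vV_5_7_42 (.nd (nat_lit 0x5890e18100) vV_5_7_35 (.nd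 (nat_lit 0x5890c14200) vV_5_7_32 (.nd (nat_lit 0x588101c080) vV_5_7_30 (.nd (nat_lit 0x5881018100) vV_5_7_29 .lf .lf) (.nd (nat_lit 0x5881020000) vV_5_7_31 .lf .lf)) (.nd (nat_lit 0x5890e14180) vV_5_7_34 (.nd (nat_lit 0x5890c18180) vV_5_7_33 .lf .lf) .lf)) (.nd (nat_lit 0x5891018080) vV_5_7_39 (.nd (nat_lit 0x5891010180) vV_5_7_37 (.nd (nat_lit 0x5890e1c080) vV_5_7_36 .lf .lf) (.nd (nat_lit 0x5891014100) vV_5_7_38 .lf .lf)) (.nd (nat_lit 0x589120c180) vV_5_7_41 (.nd (nat_lit 0x589101c000) vV_5_7_40 .lf .lf) .lf))) (.nd (nat_lit 0x58a0e1c000) vV_5_7_49 (.nd (nat_lit 0x58a0e10180) vV_5_7_46 (.nd (nat_lit 0x58a0c14180) vV_5_7_44 (.nd (nat_lit 0x58a0c10200) vV_5_7_43 .lf .lf) (.nd (nat_lit 0x58a0c18100) vV_5_7_45 .lf .lf)) (.nd (nat_lit 0x58a0e18080) vV_5_7_48 (.nd (nat_lit 0x58a0e14100) vV_5_7_47 .lf .lf) .lf)) (.nd (nat_lit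 0x58a1018000) vV_5_7_53 (.nd (nat_lit 0x58a1010100) vV_5_7_51 (.nd (nat_lit 0x58a100c180) vV_5_7_50 .lf .lf) (.nd (nat_lit 0x58a1014080) vV_5_7_52 .lf .lf)) (.nd (nat_lit 0x58a1210080) vV_5_7_55 (.nd (nat_lit 0x58a120c100) vV_5_7_54 .lf .lf) .lf))))) (.nd (nat_lit 0x6090c10200) vV_5_7_84 (.nd (nat_lit 0x58b120c080) vV_5_7_70 (.nd (nat_lit 0x58b0e0c180) vV_5_7_63 (.nd (nat_lit 0x58b0a14180) vV_5_7_60 (.nd (nat_lit 0x58a140c080) vV_5_7_58 (.nd (nat_lit 0x58a1408100) vV_5_7_57 .lf .lf) (.nd (nat_lit 0x58a1410000) vV_5_7_59 .lf .lf)) (.nd (nat_lit 0x58b0c14100) vV_5_7_62 (.nd (nat_lit 0x58b0c10180) vV_5_7_61 .lf .lf) .lf)) (.nd (nat_lit 0x58b100c100) vV_5_7_67 (.nd (nat_lit 0x58b0e14080) vV_5_7_65 (.nd (nat_lit 0x58b0e10100) vV_5_7_64 .lf .lf) (.nd (nat_lit 0x58b0e18000) vV_5_7_66 .lf .lf)) (.nd (nat_lit 0x58b1014000) vV_5_7_69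 (.nd (nat_lit 0x58b1010080) vV_5_7_68 .lf .lf) .lf))) (.nd (nat_lit 0x6080e10200) vV_5_7_77 (.nd (nat_lit 0x6070c18200) vV_5_7_74 (.nd (nat_lit 0x58b140c000) vV_5_7_72 (.nd (nat_lit 0x58b1210000) vV_5_7_71 .lf .lf) (.nd (nat_lit 0x58b1604080) vV_5_7_73 .lf .lf)) (.nd (nat_lit 0x6080c18180) vV_5_7_76 (.nd (nat_lit 0x6080c14200) vV_5_7_75 .lf .lf) .lf)) (.nd (nat_lit 0x6081014100) vV_5_7_81 (.nd (nat_lit 0x6080e18100) vV_5_7_79 (.nd (nat_lit 0x6080e14180) vV_5_7_78 .lf .lf) (.nd (nat_lit 0x6081010180) vV_5_7_80 .lf .lf)) (.nd (nat_lit 0x608101c000) vV_5_7_83 (.nd (nat_lit 0x6081018080) vV_5_7_82 .lf .lf) .lf)))) (.nd (nat_lit 0x60a0c10180) vV_5_7_98 (.nd (nat_lit 0x6091010100) vV_5_7_91 (.nd (nat_lit 0x6090e14100) vV_5_7_88 (.nd (nat_lit 0x6090c18100) vV_5_7_86 (.nd (nat_lit 0x6090c14180) vV_5_7_85 .lf .lf) (.nd (nat_lit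 0x6090e10180) vV_5_7_87 .lf .lf)) (.nd (nat_lit 0x609100c180) vV_5_7_90 (.nd (nat_lit 0x6090e18080) vV_5_7_89 .lf .lf) .lf)) (.nd (nat_lit 0x6091210080) vV_5_7_95 (.nd (nat_lit 0x6091018000) vV_5_7_93 (.nd (nat_lit 0x6091014080) vV_5_7_92 .lf .lf) (.nd (nat_lit 0x609120c100) vV_5_7_94 .lf .lf)) (.nd (nat_lit 0x60a0a10200) vV_5_7_97 (.nd (nat_lit 0x6091214000) vV_5_7_96 .lf .lf) .lf))) (.nd (nat_lit 0x60a100c100) vV_5_7_105 (.nd (nat_lit 0x60a0e10100) vV_5_7_102 (.nd (nat_lit 0x60a0c18080) vV_5_7_100 (.nd (nat_lit 0x60a0c14100) vV_5_7_99 .lf .lf) (.nd (nat_lit 0x60a0e0c180) vV_5_7_101 .lf .lf)) (.nd (nat_lit 0x60a0e18000) vV_5_7_104 (.nd (nat_lit 0x60a0e14080) vV_5_7_103 .lf .lf) .lf)) (.nd (nat_lit 0x60a120c080) vV_5_7_109 (.nd (nat_lit 0x60a1014000) vV_5_7_107 (.nd (nat_lit 0x60a1010080) vV_5_7_106 .lf .lf) (.nd (nat_lit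 0x60a1208100) vV_5_7_108 .lf .lf)) (.nd (nat_lit 0x60a1408080) vV_5_7_111 (.nd (nat_lit 0x60a1210000) vV_5_7_110 .lf .lf) .lf)))))) (.nd (nat_lit 0x68a0a10180) vV_5_7_169 (.nd (nat_lit 0x60c1600000) vV_5_7_141 (.nd (nat_lit 0x60b1404080) vV_5_7_127 (.nd (nat_lit 0x60b0e10080) vV_5_7_120 (.nd (nat_lit 0x60b0c10100) vV_5_7_116 (.nd (nat_lit 0x60b0a14100) vV_5_7_114 (.nd (nat_lit 0x60b0a10180) vV_5_7_113 .lf .lf) (.nd (nat_lit 0x60b0c0c180) vV_5_7_115 .lf .lf)) (.nd (nat_lit 0x60b0c18000) vV_5_7_118 (.nd (nat_lit 0x60b0c14080) vV_5_7_117 .lf .lf) (.nd (nat_lit 0x60b0e0c100) vV_5_7_119 .lf .lf))) (.nd (nat_lit 0x60b1010000) vV_5_7_124 (.nd (nat_lit 0x60b1008100) vV_5_7_122 (.nd (nat_lit 0x60b0e14000) vV_5_7_121 .lf .lf) (.nd (nat_lit 0x60b100c080) vV_5_7_123 .lf .lf)) (.nd (nat_lit 0x60b120c000) vV_5_7_126 (.nd (nat_lit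 0x60b1208080) vV_5_7_125 .lf .lf) .lf))) (.nd (nat_lit 0x60c0e08100) vV_5_7_134 (.nd (nat_lit 0x60c0c0c100) vV_5_7_131 (.nd (nat_lit 0x60c0810180) vV_5_7_129 (.nd (nat_lit 0x60b1408000) vV_5_7_128 .lf .lf) (.nd (nat_lit 0x60c0a10100) vV_5_7_130 .lf .lf)) (.nd (nat_lit 0x60c0c14000) vV_5_7_133 (.nd (nat_lit 0x60c0c10080) vV_5_7_132 .lf .lf) .lf)) (.nd (nat_lit 0x60c100c000) vV_5_7_138 (.nd (nat_lit 0x60c0e10000) vV_5_7_136 (.nd (nat_lit 0x60c0e0c080) vV_5_7_135 .lf .lf) (.nd (nat_lit 0x60c1008080) vV_5_7_137 .lf .lf)) (.nd (nat_lit 0x60c1404000) vV_5_7_140 (.nd (nat_lit 0x60c1208000) vV_5_7_139 .lf .lf) .lf)))) (.nd (nat_lit 0x6890a14180) vV_5_7_155 (.nd (nat_lit 0x6880e10180) vV_5_7_148 (.nd (nat_lit 0x6880c10200) vV_5_7_145 (.nd (nat_lit 0x6870c18180) vV_5_7_143 (.nd (nat_lit 0x6860c18200) vV_5_7_142 .lf .lf) (.nd (nat_lit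 0x6870e14180) vV_5_7_144 .lf .lf)) (.nd (nat_lit 0x6880c18100) vV_5_7_147 (.nd (nat_lit 0x6880c14180) vV_5_7_146 .lf .lf) .lf)) (.nd (nat_lit 0x6881010100) vV_5_7_152 (.nd (nat_lit 0x6880e18080) vV_5_7_150 (.nd (nat_lit 0x6880e14100) vV_5_7_149 .lf .lf) (.nd (nat_lit 0x6880e1c000) vV_5_7_151 .lf .lf)) (.nd (nat_lit 0x6881018000) vV_5_7_154 (.nd (nat_lit 0x6881014080) vV_5_7_153 .lf .lf) .lf))) (.nd (nat_lit 0x6890e18000) vV_5_7_162 (.nd (nat_lit 0x6890e0c180) vV_5_7_159 (.nd (nat_lit 0x6890c14100) vV_5_7_157 (.nd (nat_lit 0x6890c10180) vV_5_7_156 .lf .lf) (.nd (nat_lit 0x6890c18080) vV_5_7_158 .lf .lf)) (.nd (nat_lit 0x6890e14080) vV_5_7_161 (.nd (nat_lit 0x6890e10100) vV_5_7_160 .lf .lf) .lf)) (.nd (nat_lit 0x689120c080) vV_5_7_166 (.nd (nat_lit 0x6891010080) vV_5_7_164 (.nd (nat_lit 0x689100c100) vV_5_7_163 .lf .lf)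 (.nd (nat_lit 0x6891014000) vV_5_7_165 .lf .lf)) (.nd (nat_lit 0x68a0810200) vV_5_7_168 (.nd (nat_lit 0x6891210000) vV_5_7_167 .lf .lf) .lf))))) (.nd (nat_lit 0x68b1204080) vV_5_7_197 (.nd (nat_lit 0x68a1404080) vV_5_7_183 (.nd (nat_lit 0x68a0e10080) vV_5_7_176 (.nd (nat_lit 0x68a0c14080) vV_5_7_173 (.nd (nat_lit 0x68a0c0c180) vV_5_7_171 (.nd (nat_lit 0x68a0a14100) vV_5_7_170 .lf .lf) (.nd (nat_lit 0x68a0c10100) vV_5_7_172 .lf .lf)) (.nd (nat_lit 0x68a0e0c100) vV_5_7_175 (.nd (nat_lit 0x68a0c18000) vV_5_7_174 .lf .lf) .lf)) (.nd (nat_lit 0x68a1010000) vV_5_7_180 (.nd (nat_lit 0x68a1008100) vV_5_7_178 (.nd (nat_lit 0x68a0e14000) vV_5_7_177 .lf .lf) (.nd (nat_lit 0x68a100c080) vV_5_7_179 .lf .lf)) (.nd (nat_lit 0x68a120c000) vV_5_7_182 (.nd (nat_lit 0x68a1208080) vV_5_7_181 .lf .lf) .lf))) (.nd (nat_lit 0x68b0c10080) vV_5_7_190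 (.nd (nat_lit 0x68b0a10100) vV_5_7_187 (.nd (nat_lit 0x68b0810180) vV_5_7_185 (.nd (nat_lit 0x68a1408000) vV_5_7_184 .lf .lf) (.nd (nat_lit 0x68b0a0c180) vV_5_7_186 .lf .lf)) (.nd (nat_lit 0x68b0c0c100) vV_5_7_189 (.nd (nat_lit 0x68b0a14080) vV_5_7_188 .lf .lf) .lf)) (.nd (nat_lit 0x68b0e10000) vV_5_7_194 (.nd (nat_lit 0x68b0e08100) vV_5_7_192 (.nd (nat_lit 0x68b0c14000) vV_5_7_191 .lf .lf) (.nd (nat_lit 0x68b0e0c080) vV_5_7_193 .lf .lf)) (.nd (nat_lit 0x68b100c000) vV_5_7_196 (.nd (nat_lit 0x68b1008080) vV_5_7_195 .lf .lf) .lf)))) (.nd (nat_lit 0x68c1204000) vV_5_7_211 (.nd (nat_lit 0x68c0c08100) vV_5_7_204 (.nd (nat_lit 0x68c0a0c100) vV_5_7_201 (.nd (nat_lit 0x68b1404000) vV_5_7_199 (.nd (nat_lit 0x68b1208000) vV_5_7_198 .lf .lf) (.nd (nat_lit 0x68c0810100) vV_5_7_200 .lf .lf)) (.nd (nat_lit 0x68c0a14000) vV_5_7_203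 (.nd (nat_lit 0x68c0a10080) vV_5_7_202 .lf .lf) .lf)) (.nd (nat_lit 0x68c0e0c000) vV_5_7_208 (.nd (nat_lit 0x68c0c10000) vV_5_7_206 (.nd (nat_lit 0x68c0c0c080) vV_5_7_205 .lf .lf) (.nd (nat_lit 0x68c0e08080) vV_5_7_207 .lf .lf)) (.nd (nat_lit 0x68c1008000) vV_5_7_210 (.nd (nat_lit 0x68c1004080) vV_5_7_209 .lf .lf) .lf))) (.nd (nat_lit 0x68d0c08080) vV_5_7_218 (.nd (nat_lit 0x68d0810080) vV_5_7_215 (.nd (nat_lit 0x68d060c180) vV_5_7_213 (.nd (nat_lit 0x68c1400000) vV_5_7_212 .lf .lf) (.nd (nat_lit 0x68d080c100) vV_5_7_214 .lf .lf)) (.nd (nat_lit 0x68d0a10000) vV_5_7_217 (.nd (nat_lit 0x68d0a0c080) vV_5_7_216 .lf .lf) .lf)) (.nd (nat_lit 0x68d1004000) vV_5_7_222 (.nd (nat_lit 0x68d0e04080) vV_5_7_220 (.nd (nat_lit 0x68d0c0c000) vV_5_7_219 .lf .lf) (.nd (nat_lit 0x68d0e08000) vV_5_7_221 .lf .lf)) (.nd (nat_lit 0x7060c18180)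 vV_5_7_224 (.nd (nat_lit 0x68d1200000) vV_5_7_223 .lf .lf) .lf))))))) (.nd (nat_lit 0x7890c0c100) vV_5_7_338 (.nd (nat_lit 0x70b1008000) vV_5_7_282 (.nd (nat_lit 0x7091208080) vV_5_7_254 (.nd (nat_lit 0x7081014000) vV_5_7_240 (.nd (nat_lit 0x7080c18080) vV_5_7_233 (.nd (nat_lit 0x7070e18080) vV_5_7_229 (.nd (nat_lit 0x7070c18100) vV_5_7_227 (.nd (nat_lit 0x7070c14180) vV_5_7_226 .lf .lf) (.nd (nat_lit 0x7070e10180) vV_5_7_228 .lf .lf)) (.nd (nat_lit 0x7080c10180) vV_5_7_231 (.nd (nat_lit 0x7080a10200) vV_5_7_230 .lf .lf) (.nd (nat_lit 0x7080c14100) vV_5_7_232 .lf .lf))) (.nd (nat_lit 0x7080e18000) vV_5_7_237 (.nd (nat_lit 0x7080e10100) vV_5_7_235 (.nd (nat_lit 0x7080e0c180) vV_5_7_234 .lf .lf) (.nd (nat_lit 0x7080e14080) vV_5_7_236 .lf .lf)) (.nd (nat_lit 0x7081010080) vV_5_7_239 (.nd (nat_lit 0x708100c100) vV_5_7_238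 .lf .lf) .lf))) (.nd (nat_lit 0x7090c18000) vV_5_7_247 (.nd (nat_lit 0x7090c0c180) vV_5_7_244 (.nd (nat_lit 0x7090a10180) vV_5_7_242 (.nd (nat_lit 0x7090810200) vV_5_7_241 .lf .lf) (.nd (nat_lit 0x7090a14100) vV_5_7_243 .lf .lf)) (.nd (nat_lit 0x7090c14080) vV_5_7_246 (.nd (nat_lit 0x7090c10100) vV_5_7_245 .lf .lf) .lf)) (.nd (nat_lit 0x7091008100) vV_5_7_251 (.nd (nat_lit 0x7090e10080) vV_5_7_249 (.nd (nat_lit 0x7090e0c100) vV_5_7_248 .lf .lf) (.nd (nat_lit 0x7090e14000) vV_5_7_250 .lf .lf)) (.nd (nat_lit 0x7091010000) vV_5_7_253 (.nd (nat_lit 0x709100c080) vV_5_7_252 .lf .lf) .lf)))) (.nd (nat_lit 0x70a1204080) vV_5_7_268 (.nd (nat_lit 0x70a0c10080) vV_5_7_261 (.nd (nat_lit 0x70a0a10100) vV_5_7_258 (.nd (nat_lit 0x70a0810180) vV_5_7_256 (.nd (nat_lit 0x709120c000) vV_5_7_255 .lf .lf) (.nd (nat_lit 0x70a0a0c180) vV_5_7_257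 .lf .lf)) (.nd (nat_lit 0x70a0c0c100) vV_5_7_260 (.nd (nat_lit 0x70a0a14080) vV_5_7_259 .lf .lf) .lf)) (.nd (nat_lit 0x70a0e10000) vV_5_7_265 (.nd (nat_lit 0x70a0e08100) vV_5_7_263 (.nd (nat_lit 0x70a0c14000) vV_5_7_262 .lf .lf) (.nd (nat_lit 0x70a0e0c080) vV_5_7_264 .lf .lf)) (.nd (nat_lit 0x70a100c000) vV_5_7_267 (.nd (nat_lit 0x70a1008080) vV_5_7_266 .lf .lf) .lf))) (.nd (nat_lit 0x70b0a14000) vV_5_7_275 (.nd (nat_lit 0x70b0810100) vV_5_7_272 (.nd (nat_lit 0x70a1404000) vV_5_7_270 (.nd (nat_lit 0x70a1208000) vV_5_7_269 .lf .lf) (.nd (nat_lit 0x70b080c180) vV_5_7_271 .lf .lf)) (.nd (nat_lit 0x70b0a10080) vV_5_7_274 (.nd (nat_lit 0x70b0a0c100) vV_5_7_273 .lf .lf) .lf)) (.nd (nat_lit 0x70b0e08080) vV_5_7_279 (.nd (nat_lit 0x70b0c0c080) vV_5_7_277 (.nd (nat_lit 0x70b0c08100) vV_5_7_276 .lf .lf) (.nd (nat_lit 0x70b0c10000)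 vV_5_7_278 .lf .lf)) (.nd (nat_lit 0x70b1004080) vV_5_7_281 (.nd (nat_lit 0x70b0e0c000) vV_5_7_280 .lf .lf) .lf))))) (.nd (nat_lit 0x70e0c04000) vV_5_7_310 (.nd (nat_lit 0x70d0808100) vV_5_7_296 (.nd (nat_lit 0x70c0a10000) vV_5_7_289 (.nd (nat_lit 0x70c0810080) vV_5_7_286 (.nd (nat_lit 0x70b1400000) vV_5_7_284 (.nd (nat_lit 0x70b1204000) vV_5_7_283 .lf .lf) (.nd (nat_lit 0x70c080c100) vV_5_7_285 .lf .lf)) (.nd (nat_lit 0x70c0a0c080) vV_5_7_288 (.nd (nat_lit 0x70c0a08100) vV_5_7_287 .lf .lf) .lf)) (.nd (nat_lit 0x70c0e08000) vV_5_7_293 (.nd (nat_lit 0x70c0c0c000) vV_5_7_291 (.nd (nat_lit 0x70c0c08080) vV_5_7_290 .lf .lf) (.nd (nat_lit 0x70c0e04080) vV_5_7_292 .lf .lf)) (.nd (nat_lit 0x70c1200000) vV_5_7_295 (.nd (nat_lit 0x70c1004000) vV_5_7_294 .lf .lf) .lf))) (.nd (nat_lit 0x70d0e04000) vV_5_7_303 (.nd (nat_lit 0x70d0a0c000)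 vV_5_7_300 (.nd (nat_lit 0x70d0810000) vV_5_7_298 (.nd (nat_lit 0x70d080c080) vV_5_7_297 .lf .lf) (.nd (nat_lit 0x70d0a08080) vV_5_7_299 .lf .lf)) (.nd (nat_lit 0x70d0c08000) vV_5_7_302 (.nd (nat_lit 0x70d0c04080) vV_5_7_301 .lf .lf) .lf)) (.nd (nat_lit 0x70e080c000) vV_5_7_307 (.nd (nat_lit 0x70e0608100) vV_5_7_305 (.nd (nat_lit 0x70d1000000) vV_5_7_304 .lf .lf) (.nd (nat_lit 0x70e0808080) vV_5_7_306 .lf .lf)) (.nd (nat_lit 0x70e0a08000) vV_5_7_309 (.nd (nat_lit 0x70e0a04080) vV_5_7_308 .lf .lf) .lf)))) (.nd (nat_lit 0x7880c0c180) vV_5_7_324 (.nd (nat_lit 0x7870e0c180) vV_5_7_317 (.nd (nat_lit 0x7870c10180) vV_5_7_314 (.nd (nat_lit 0x7860c10200) vV_5_7_312 (.nd (nat_lit 0x70e0e00000) vV_5_7_311 .lf .lf) (.nd (nat_lit 0x7860c18100) vV_5_7_313 .lf .lf)) (.nd (nat_lit 0x7870c18080) vV_5_7_316 (.nd (nat_lit 0x7870c14100)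 vV_5_7_315 .lf .lf) .lf)) (.nd (nat_lit 0x7880810200) vV_5_7_321 (.nd (nat_lit 0x7870e14080) vV_5_7_319 (.nd (nat_lit 0x7870e10100) vV_5_7_318 .lf .lf) (.nd (nat_lit 0x7870e18000) vV_5_7_320 .lf .lf)) (.nd (nat_lit 0x7880a14100) vV_5_7_323 (.nd (nat_lit 0x7880a10180) vV_5_7_322 .lf .lf) .lf))) (.nd (nat_lit 0x7881008100) vV_5_7_331 (.nd (nat_lit 0x7880e0c100) vV_5_7_328 (.nd (nat_lit 0x7880c14080) vV_5_7_326 (.nd (nat_lit 0x7880c10100) vV_5_7_325 .lf .lf) (.nd (nat_lit 0x7880c18000) vV_5_7_327 .lf .lf)) (.nd (nat_lit 0x7880e14000) vV_5_7_330 (.nd (nat_lit 0x7880e10080) vV_5_7_329 .lf .lf) .lf)) (.nd (nat_lit 0x7890a0c180) vV_5_7_335 (.nd (nat_lit 0x7881010000) vV_5_7_333 (.nd (nat_lit 0x788100c080) vV_5_7_332 .lf .lf) (.nd (nat_lit 0x7890810180) vV_5_7_334 .lf .lf)) (.nd (nat_lit 0x7890a14080) vV_5_7_337 (.nd (nat_lit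 0x7890a10100) vV_5_7_336 .lf .lf) .lf)))))) (.nd (nat_lit 0x78e0804080) vV_5_7_394 (.nd (nat_lit 0x78b0a10000) vV_5_7_366 (.nd (nat_lit 0x78a0a14000) vV_5_7_352 (.nd (nat_lit 0x789100c000) vV_5_7_345 (.nd (nat_lit 0x7890e0c080) vV_5_7_342 (.nd (nat_lit 0x7890c14000) vV_5_7_340 (.nd (nat_lit 0x7890c10080) vV_5_7_339 .lf .lf) (.nd (nat_lit 0x7890e08100) vV_5_7_341 .lf .lf)) (.nd (nat_lit 0x7891008080) vV_5_7_344 (.nd (nat_lit 0x7890e10000) vV_5_7_343 .lf .lf) .lf)) (.nd (nat_lit 0x78a0810100) vV_5_7_349 (.nd (nat_lit 0x7891208000) vV_5_7_347 (.nd (nat_lit 0x7891204080) vV_5_7_346 .lf .lf) (.nd (nat_lit 0x78a080c180) vV_5_7_348 .lf .lf)) (.nd (nat_lit 0x78a0a10080) vV_5_7_351 (.nd (nat_lit 0x78a0a0c100) vV_5_7_350 .lf .lf) .lf))) (.nd (nat_lit 0x78a1008000) vV_5_7_359 (.nd (nat_lit 0x78a0e08080) vV_5_7_356 (.nd (nat_lit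 0x78a0c0c080) vV_5_7_354 (.nd (nat_lit 0x78a0c08100) vV_5_7_353 .lf .lf) (.nd (nat_lit 0x78a0c10000) vV_5_7_355 .lf .lf)) (.nd (nat_lit 0x78a1004080) vV_5_7_358 (.nd (nat_lit 0x78a0e0c000) vV_5_7_357 .lf .lf) .lf)) (.nd (nat_lit 0x78b0810080) vV_5_7_363 (.nd (nat_lit 0x78a1400000) vV_5_7_361 (.nd (nat_lit 0x78a1204000) vV_5_7_360 .lf .lf) (.nd (nat_lit 0x78b080c100) vV_5_7_362 .lf .lf)) (.nd (nat_lit 0x78b0a0c080) vV_5_7_365 (.nd (nat_lit 0x78b0a08100) vV_5_7_364 .lf .lf) .lf)))) (.nd (nat_lit 0x78c0c08000) vV_5_7_380 (.nd (nat_lit 0x78c060c100) vV_5_7_373 (.nd (nat_lit 0x78b0e08000) vV_5_7_370 (.nd (nat_lit 0x78b0c0c000) vV_5_7_368 (.nd (nat_lit 0x78b0c08080) vV_5_7_367 .lf .lf) (.nd (nat_lit 0x78b0e04080) vV_5_7_369 .lf .lf)) (.nd (nat_lit 0x78b1200000) vV_5_7_372 (.nd (nat_lit 0x78b1004000) vV_5_7_371 .lf .lf) .lf))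 (.nd (nat_lit 0x78c0a08080) vV_5_7_377 (.nd (nat_lit 0x78c080c080) vV_5_7_375 (.nd (nat_lit 0x78c0808100) vV_5_7_374 .lf .lf) (.nd (nat_lit 0x78c0810000) vV_5_7_376 .lf .lf)) (.nd (nat_lit 0x78c0c04080) vV_5_7_379 (.nd (nat_lit 0x78c0a0c000) vV_5_7_378 .lf .lf) .lf))) (.nd (nat_lit 0x78d0a04080) vV_5_7_387 (.nd (nat_lit 0x78d060c080) vV_5_7_384 (.nd (nat_lit 0x78c1000000) vV_5_7_382 (.nd (nat_lit 0x78c0e04000) vV_5_7_381 .lf .lf) (.nd (nat_lit 0x78d0608100) vV_5_7_383 .lf .lf)) (.nd (nat_lit 0x78d080c000) vV_5_7_386 (.nd (nat_lit 0x78d0808080) vV_5_7_385 .lf .lf) .lf)) (.nd (nat_lit 0x78e0408100) vV_5_7_391 (.nd (nat_lit 0x78d0c04000) vV_5_7_389 (.nd (nat_lit 0x78d0a08000) vV_5_7_388 .lf .lf) (.nd (nat_lit 0x78d0e00000) vV_5_7_390 .lf .lf)) (.nd (nat_lit 0x78e060c000) vV_5_7_393 (.nd (nat_lit 0x78e0608080) vV_5_7_392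 .lf .lf) .lf))))) (.nd (nat_lit 0x8080e10000) vV_5_7_422 (.nd (nat_lit 0x8070c10100) vV_5_7_408 (.nd (nat_lit 0x78f0a00000) vV_5_7_401 (.nd (nat_lit 0x78f0604080) vV_5_7_398 (.nd (nat_lit 0x78e0a04000) vV_5_7_396 (.nd (nat_lit 0x78e0808000) vV_5_7_395 .lf .lf) (.nd (nat_lit 0x78e0c00000) vV_5_7_397 .lf .lf)) (.nd (nat_lit 0x78f0804000) vV_5_7_400 (.nd (nat_lit 0x78f0608000) vV_5_7_399 .lf .lf) .lf)) (.nd (nat_lit 0x8070810200) vV_5_7_405 (.nd (nat_lit 0x8060c14100) vV_5_7_403 (.nd (nat_lit 0x8060c10180) vV_5_7_402 .lf .lf) (.nd (nat_lit 0x8060c18080) vV_5_7_404 .lf .lf)) (.nd (nat_lit 0x8070c0c180) vV_5_7_407 (.nd (nat_lit 0x8070a10180) vV_5_7_406 .lf .lf) .lf))) (.nd (nat_lit 0x8080a10100) vV_5_7_415 (.nd (nat_lit 0x8070e10080) vV_5_7_412 (.nd (nat_lit 0x8070c18000) vV_5_7_410 (.nd (nat_lit 0x8070c14080) vV_5_7_409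 .lf .lf) (.nd (nat_lit 0x8070e0c100) vV_5_7_411 .lf .lf)) (.nd (nat_lit 0x8080810180) vV_5_7_414 (.nd (nat_lit 0x8070e14000) vV_5_7_413 .lf .lf) .lf)) (.nd (nat_lit 0x8080c14000) vV_5_7_419 (.nd (nat_lit 0x8080c0c100) vV_5_7_417 (.nd (nat_lit 0x8080a14080) vV_5_7_416 .lf .lf) (.nd (nat_lit 0x8080c10080) vV_5_7_418 .lf .lf)) (.nd (nat_lit 0x8080e0c080) vV_5_7_421 (.nd (nat_lit 0x8080e08100) vV_5_7_420 .lf .lf) .lf)))) (.nd (nat_lit 0x8091008000) vV_5_7_436 (.nd (nat_lit 0x8090a14000) vV_5_7_429 (.nd (nat_lit 0x8090810100) vV_5_7_426 (.nd (nat_lit 0x808100c000) vV_5_7_424 (.nd (nat_lit 0x8081008080) vV_5_7_423 .lf .lf) (.nd (nat_lit 0x809080c180) vV_5_7_425 .lf .lf)) (.nd (nat_lit 0x8090a10080) vV_5_7_428 (.nd (nat_lit 0x8090a0c100) vV_5_7_427 .lf .lf) .lf)) (.nd (nat_lit 0x8090e08080) vV_5_7_433 (.nd (nat_lit 0x8090c0c080)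 vV_5_7_431 (.nd (nat_lit 0x8090c08100) vV_5_7_430 .lf .lf) (.nd (nat_lit 0x8090c10000) vV_5_7_432 .lf .lf)) (.nd (nat_lit 0x8091004080) vV_5_7_435 (.nd (nat_lit 0x8090e0c000) vV_5_7_434 .lf .lf) .lf))) (.nd (nat_lit 0x80a0c08080) vV_5_7_443 (.nd (nat_lit 0x80a0a08100) vV_5_7_440 (.nd (nat_lit 0x80a080c100) vV_5_7_438 (.nd (nat_lit 0x8091204000) vV_5_7_437 .lf .lf) (.nd (nat_lit 0x80a0810080) vV_5_7_439 .lf .lf)) (.nd (nat_lit 0x80a0a10000) vV_5_7_442 (.nd (nat_lit 0x80a0a0c080) vV_5_7_441 .lf .lf) .lf)) (.nd (nat_lit 0x80a1004000) vV_5_7_447 (.nd (nat_lit 0x80a0e04080) vV_5_7_445 (.nd (nat_lit 0x80a0c0c000) vV_5_7_444 .lf .lf) (.nd (nat_lit 0x80a0e08000) vV_5_7_446 .lf .lf)) (.nd (nat_lit 0x80b060c100) vV_5_7_449 (.nd (nat_lit 0x80a1200000) vV_5_7_448 .lf .lf) .lf)))))))) (.nd (nat_lit 0x98e0400000) vV_5_7_676 (.nd (nat_lit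 0x9060c14000) vV_5_7_563 (.nd (nat_lit 0x8881004080) vV_5_7_507 (.nd (nat_lit 0x80f0404080) vV_5_7_479 (.nd (nat_lit 0x80c0c04000) vV_5_7_465 (.nd (nat_lit 0x80b1000000) vV_5_7_458 (.nd (nat_lit 0x80b0a0c000) vV_5_7_454 (.nd (nat_lit 0x80b0810000) vV_5_7_452 (.nd (nat_lit 0x80b080c080) vV_5_7_451 .lf .lf) (.nd (nat_lit 0x80b0a08080) vV_5_7_453 .lf .lf)) (.nd (nat_lit 0x80b0c08000) vV_5_7_456 (.nd (nat_lit 0x80b0c04080) vV_5_7_455 .lf .lf) (.nd (nat_lit 0x80b0e04000) vV_5_7_457 .lf .lf))) (.nd (nat_lit 0x80c080c000) vV_5_7_462 (.nd (nat_lit 0x80c060c080) vV_5_7_460 (.nd (nat_lit 0x80c0608100) vV_5_7_459 .lf .lf) (.nd (nat_lit 0x80c0808080) vV_5_7_461 .lf .lf)) (.nd (nat_lit 0x80c0a08000) vV_5_7_464 (.nd (nat_lit 0x80c0a04080) vV_5_7_463 .lf .lf) .lf))) (.nd (nat_lit 0x80d0a04000) vV_5_7_472 (.nd (nat_lit 0x80d060c000)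 vV_5_7_469 (.nd (nat_lit 0x80d0408100) vV_5_7_467 (.nd (nat_lit 0x80c0e00000) vV_5_7_466 .lf .lf) (.nd (nat_lit 0x80d0608080) vV_5_7_468 .lf .lf)) (.nd (nat_lit 0x80d0808000) vV_5_7_471 (.nd (nat_lit 0x80d0804080) vV_5_7_470 .lf .lf) .lf)) (.nd (nat_lit 0x80e0608000) vV_5_7_476 (.nd (nat_lit 0x80e0408080) vV_5_7_474 (.nd (nat_lit 0x80d0c00000) vV_5_7_473 .lf .lf) (.nd (nat_lit 0x80e0604080) vV_5_7_475 .lf .lf)) (.nd (nat_lit 0x80e0a00000) vV_5_7_478 (.nd (nat_lit 0x80e0804000) vV_5_7_477 .lf .lf) .lf)))) (.nd (nat_lit 0x8870c0c100) vV_5_7_493 (.nd (nat_lit 0x8860c10100) vV_5_7_486 (.nd (nat_lit 0x8100404000) vV_5_7_483 (.nd (nat_lit 0x80f0604000) vV_5_7_481 (.nd (nat_lit 0x80f0408000) vV_5_7_480 .lf .lf) (.nd (nat_lit 0x80f0800000) vV_5_7_482 .lf .lf)) (.nd (nat_lit 0x8860810200) vV_5_7_485 (.nd (nat_lit 0x8100600000)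 vV_5_7_484 .lf .lf) .lf)) (.nd (nat_lit 0x8870a0c180) vV_5_7_490 (.nd (nat_lit 0x8860c18000) vV_5_7_488 (.nd (nat_lit 0x8860c14080) vV_5_7_487 .lf .lf) (.nd (nat_lit 0x8870810180) vV_5_7_489 .lf .lf)) (.nd (nat_lit 0x8870a14080) vV_5_7_492 (.nd (nat_lit 0x8870a10100) vV_5_7_491 .lf .lf) .lf))) (.nd (nat_lit 0x8880a10080) vV_5_7_500 (.nd (nat_lit 0x8870e10000) vV_5_7_497 (.nd (nat_lit 0x8870c14000) vV_5_7_495 (.nd (nat_lit 0x8870c10080) vV_5_7_494 .lf .lf) (.nd (nat_lit 0x8870e0c080) vV_5_7_496 .lf .lf)) (.nd (nat_lit 0x8880a0c100) vV_5_7_499 (.nd (nat_lit 0x8880810100) vV_5_7_498 .lf .lf) .lf)) (.nd (nat_lit 0x8880c10000) vV_5_7_504 (.nd (nat_lit 0x8880c08100) vV_5_7_502 (.nd (nat_lit 0x8880a14000) vV_5_7_501 .lf .lf) (.nd (nat_lit 0x8880c0c080) vV_5_7_503 .lf .lf)) (.nd (nat_lit 0x8880e0c000) vV_5_7_506 (.nd (nat_lit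 0x8880e08080) vV_5_7_505 .lf .lf) .lf))))) (.nd (nat_lit 0x88b0a08000) vV_5_7_535 (.nd (nat_lit 0x88a0808100) vV_5_7_521 (.nd (nat_lit 0x8890c08080) vV_5_7_514 (.nd (nat_lit 0x8890a08100) vV_5_7_511 (.nd (nat_lit 0x889080c100) vV_5_7_509 (.nd (nat_lit 0x8881008000) vV_5_7_508 .lf .lf) (.nd (nat_lit 0x8890810080) vV_5_7_510 .lf .lf)) (.nd (nat_lit 0x8890a10000) vV_5_7_513 (.nd (nat_lit 0x8890a0c080) vV_5_7_512 .lf .lf) .lf)) (.nd (nat_lit 0x8891004000) vV_5_7_518 (.nd (nat_lit 0x8890e04080) vV_5_7_516 (.nd (nat_lit 0x8890c0c000) vV_5_7_515 .lf .lf) (.nd (nat_lit 0x8890e08000) vV_5_7_517 .lf .lf)) (.nd (nat_lit 0x88a060c100) vV_5_7_520 (.nd (nat_lit 0x8891200000) vV_5_7_519 .lf .lf) .lf))) (.nd (nat_lit 0x88a0e04000) vV_5_7_528 (.nd (nat_lit 0x88a0a0c000) vV_5_7_525 (.nd (nat_lit 0x88a0810000) vV_5_7_523 (.nd (nat_lit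 0x88a080c080) vV_5_7_522 .lf .lf) (.nd (nat_lit 0x88a0a08080) vV_5_7_524 .lf .lf)) (.nd (nat_lit 0x88a0c08000) vV_5_7_527 (.nd (nat_lit 0x88a0c04080) vV_5_7_526 .lf .lf) .lf)) (.nd (nat_lit 0x88b0808080) vV_5_7_532 (.nd (nat_lit 0x88b0608100) vV_5_7_530 (.nd (nat_lit 0x88a1000000) vV_5_7_529 .lf .lf) (.nd (nat_lit 0x88b060c080) vV_5_7_531 .lf .lf)) (.nd (nat_lit 0x88b0a04080) vV_5_7_534 (.nd (nat_lit 0x88b080c000) vV_5_7_533 .lf .lf) .lf)))) (.nd (nat_lit 0x88d0a00000) vV_5_7_549 (.nd (nat_lit 0x88c0808000) vV_5_7_542 (.nd (nat_lit 0x88c0608080) vV_5_7_539 (.nd (nat_lit 0x88b0e00000) vV_5_7_537 (.nd (nat_lit 0x88b0c04000) vV_5_7_536 .lf .lf) (.nd (nat_lit 0x88c0408100) vV_5_7_538 .lf .lf)) (.nd (nat_lit 0x88c0804080) vV_5_7_541 (.nd (nat_lit 0x88c060c000) vV_5_7_540 .lf .lf) .lf)) (.nd (nat_lit 0x88d0604080) vV_5_7_546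 (.nd (nat_lit 0x88c0c00000) vV_5_7_544 (.nd (nat_lit 0x88c0a04000) vV_5_7_543 .lf .lf) (.nd (nat_lit 0x88d0408080) vV_5_7_545 .lf .lf)) (.nd (nat_lit 0x88d0804000) vV_5_7_548 (.nd (nat_lit 0x88d0608000) vV_5_7_547 .lf .lf) .lf))) (.nd (nat_lit 0x88f0600000) vV_5_7_556 (.nd (nat_lit 0x88e0800000) vV_5_7_553 (.nd (nat_lit 0x88e0408000) vV_5_7_551 (.nd (nat_lit 0x88e0404080) vV_5_7_550 .lf .lf) (.nd (nat_lit 0x88e0604000) vV_5_7_552 .lf .lf)) (.nd (nat_lit 0x88f0404000) vV_5_7_555 (.nd (nat_lit 0x88f0204080) vV_5_7_554 .lf .lf) .lf)) (.nd (nat_lit 0x9060a10100) vV_5_7_560 (.nd (nat_lit 0x8900400000) vV_5_7_558 (.nd (nat_lit 0x8900204000) vV_5_7_557 .lf .lf) (.nd (nat_lit 0x9060810180) vV_5_7_559 .lf .lf)) (.nd (nat_lit 0x9060c10080) vV_5_7_562 (.nd (nat_lit 0x9060c0c100) vV_5_7_561 .lf .lf) .lf)))))) (.nd (nat_lit 0x90f0400000)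 vV_5_7_620 (.nd (nat_lit 0x9091000000) vV_5_7_592 (.nd (nat_lit 0x9080c08080) vV_5_7_578 (.nd (nat_lit 0x9070e08080) vV_5_7_571 (.nd (nat_lit 0x9070a14000) vV_5_7_567 (.nd (nat_lit 0x9070a0c100) vV_5_7_565 (.nd (nat_lit 0x9070810100) vV_5_7_564 .lf .lf) (.nd (nat_lit 0x9070a10080) vV_5_7_566 .lf .lf)) (.nd (nat_lit 0x9070c0c080) vV_5_7_569 (.nd (nat_lit 0x9070c08100) vV_5_7_568 .lf .lf) (.nd (nat_lit 0x9070c10000) vV_5_7_570 .lf .lf))) (.nd (nat_lit 0x9080a08100) vV_5_7_575 (.nd (nat_lit 0x908080c100) vV_5_7_573 (.nd (nat_lit 0x9070e0c000) vV_5_7_572 .lf .lf) (.nd (nat_lit 0x9080810080) vV_5_7_574 .lf .lf)) (.nd (nat_lit 0x9080a10000) vV_5_7_577 (.nd (nat_lit 0x9080a0c080) vV_5_7_576 .lf .lf) .lf))) (.nd (nat_lit 0x909080c080) vV_5_7_585 (.nd (nat_lit 0x9081004000) vV_5_7_582 (.nd (nat_lit 0x9080e04080) vV_5_7_580 (.nd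 (nat_lit 0x9080c0c000) vV_5_7_579 .lf .lf) (.nd (nat_lit 0x9080e08000) vV_5_7_581 .lf .lf)) (.nd (nat_lit 0x9090808100) vV_5_7_584 (.nd (nat_lit 0x909060c100) vV_5_7_583 .lf .lf) .lf)) (.nd (nat_lit 0x9090c04080) vV_5_7_589 (.nd (nat_lit 0x9090a08080) vV_5_7_587 (.nd (nat_lit 0x9090810000) vV_5_7_586 .lf .lf) (.nd (nat_lit 0x9090a0c000) vV_5_7_588 .lf .lf)) (.nd (nat_lit 0x9090e04000) vV_5_7_591 (.nd (nat_lit 0x9090c08000) vV_5_7_590 .lf .lf) .lf)))) (.nd (nat_lit 0x90b0a04000) vV_5_7_606 (.nd (nat_lit 0x90a0c04000) vV_5_7_599 (.nd (nat_lit 0x90a080c000) vV_5_7_596 (.nd (nat_lit 0x90a060c080) vV_5_7_594 (.nd (nat_lit 0x90a0608100) vV_5_7_593 .lf .lf) (.nd (nat_lit 0x90a0808080) vV_5_7_595 .lf .lf)) (.nd (nat_lit 0x90a0a08000) vV_5_7_598 (.nd (nat_lit 0x90a0a04080) vV_5_7_597 .lf .lf) .lf)) (.nd (nat_lit 0x90b060c000)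 vV_5_7_603 (.nd (nat_lit 0x90b0408100) vV_5_7_601 (.nd (nat_lit 0x90a0e00000) vV_5_7_600 .lf .lf) (.nd (nat_lit 0x90b0608080) vV_5_7_602 .lf .lf)) (.nd (nat_lit 0x90b0808000) vV_5_7_605 (.nd (nat_lit 0x90b0804080) vV_5_7_604 .lf .lf) .lf))) (.nd (nat_lit 0x90d0404080) vV_5_7_613 (.nd (nat_lit 0x90c0608000) vV_5_7_610 (.nd (nat_lit 0x90c0408080) vV_5_7_608 (.nd (nat_lit 0x90b0c00000) vV_5_7_607 .lf .lf) (.nd (nat_lit 0x90c0604080) vV_5_7_609 .lf .lf)) (.nd (nat_lit 0x90c0a00000) vV_5_7_612 (.nd (nat_lit 0x90c0804000) vV_5_7_611 .lf .lf) .lf)) (.nd (nat_lit 0x90e0404000) vV_5_7_617 (.nd (nat_lit 0x90d0604000) vV_5_7_615 (.nd (nat_lit 0x90d0408000) vV_5_7_614 .lf .lf) (.nd (nat_lit 0x90d0800000) vV_5_7_616 .lf .lf)) (.nd (nat_lit 0x90f0204000) vV_5_7_619 (.nd (nat_lit 0x90e0600000) vV_5_7_618 .lf .lf) .lf))))) (.nd (nat_lit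 0x9890608100) vV_5_7_648 (.nd (nat_lit 0x9870a10000) vV_5_7_634 (.nd (nat_lit 0x9860c08100) vV_5_7_627 (.nd (nat_lit 0x9860810100) vV_5_7_624 (.nd (nat_lit 0x9110000000) vV_5_7_622 (.nd (nat_lit 0x9100200000) vV_5_7_621 .lf .lf) (.nd (nat_lit 0x9840810200) vV_5_7_623 .lf .lf)) (.nd (nat_lit 0x9860a10080) vV_5_7_626 (.nd (nat_lit 0x9860a0c100) vV_5_7_625 .lf .lf) .lf)) (.nd (nat_lit 0x9870810080) vV_5_7_631 (.nd (nat_lit 0x9860c10000) vV_5_7_629 (.nd (nat_lit 0x9860c0c080) vV_5_7_628 .lf .lf) (.nd (nat_lit 0x987080c100) vV_5_7_630 .lf .lf)) (.nd (nat_lit 0x9870a0c080) vV_5_7_633 (.nd (nat_lit 0x9870a08100) vV_5_7_632 .lf .lf) .lf))) (.nd (nat_lit 0x9880810000) vV_5_7_641 (.nd (nat_lit 0x9870e08000) vV_5_7_638 (.nd (nat_lit 0x9870c0c000) vV_5_7_636 (.nd (nat_lit 0x9870c08080) vV_5_7_635 .lf .lf) (.nd (nat_lit 0x9870e04080)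 vV_5_7_637 .lf .lf)) (.nd (nat_lit 0x988080c080) vV_5_7_640 (.nd (nat_lit 0x9880808100) vV_5_7_639 .lf .lf) .lf)) (.nd (nat_lit 0x9880c08000) vV_5_7_645 (.nd (nat_lit 0x9880a0c000) vV_5_7_643 (.nd (nat_lit 0x9880a08080) vV_5_7_642 .lf .lf) (.nd (nat_lit 0x9880c04080) vV_5_7_644 .lf .lf)) (.nd (nat_lit 0x9881000000) vV_5_7_647 (.nd (nat_lit 0x9880e04000) vV_5_7_646 .lf .lf) .lf)))) (.nd (nat_lit 0x98a0c00000) vV_5_7_662 (.nd (nat_lit 0x9890e00000) vV_5_7_655 (.nd (nat_lit 0x9890a04080) vV_5_7_652 (.nd (nat_lit 0x9890808080) vV_5_7_650 (.nd (nat_lit 0x989060c080) vV_5_7_649 .lf .lf) (.nd (nat_lit 0x989080c000) vV_5_7_651 .lf .lf)) (.nd (nat_lit 0x9890c04000) vV_5_7_654 (.nd (nat_lit 0x9890a08000) vV_5_7_653 .lf .lf) .lf)) (.nd (nat_lit 0x98a0804080) vV_5_7_659 (.nd (nat_lit 0x98a0608080) vV_5_7_657 (.nd (nat_lit 0x98a0408100)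 vV_5_7_656 .lf .lf) (.nd (nat_lit 0x98a060c000) vV_5_7_658 .lf .lf)) (.nd (nat_lit 0x98a0a04000) vV_5_7_661 (.nd (nat_lit 0x98a0808000) vV_5_7_660 .lf .lf) .lf))) (.nd (nat_lit 0x98c0408000) vV_5_7_669 (.nd (nat_lit 0x98b0804000) vV_5_7_666 (.nd (nat_lit 0x98b0604080) vV_5_7_664 (.nd (nat_lit 0x98b0408080) vV_5_7_663 .lf .lf) (.nd (nat_lit 0x98b0608000) vV_5_7_665 .lf .lf)) (.nd (nat_lit 0x98c0404080) vV_5_7_668 (.nd (nat_lit 0x98b0a00000) vV_5_7_667 .lf .lf) .lf)) (.nd (nat_lit 0x98d0404000) vV_5_7_673 (.nd (nat_lit 0x98c0800000) vV_5_7_671 (.nd (nat_lit 0x98c0604000) vV_5_7_670 .lf .lf) (.nd (nat_lit 0x98d0204080) vV_5_7_672 .lf .lf)) (.nd (nat_lit 0x98e0204000) vV_5_7_675 (.nd (nat_lit 0x98d0600000) vV_5_7_674 .lf .lf) .lf))))))) (.nd (nat_lit 0xb090408000) vV_5_7_789 (.nd (nat_lit 0xa860c08000) vV_5_7_733 (.nd (nat_lit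 0xa09060c000) vV_5_7_705 (.nd (nat_lit 0xa070a0c000) vV_5_7_691 (.nd (nat_lit 0xa060a10000) vV_5_7_684 (.nd (nat_lit 0xa06080c100) vV_5_7_680 (.nd (nat_lit 0x9900000000) vV_5_7_678 (.nd (nat_lit 0x98f0200000) vV_5_7_677 .lf .lf) (.nd (nat_lit 0xa050810100) vV_5_7_679 .lf .lf)) (.nd (nat_lit 0xa060a08100) vV_5_7_682 (.nd (nat_lit 0xa060810080) vV_5_7_681 .lf .lf) (.nd (nat_lit 0xa060a0c080) vV_5_7_683 .lf .lf))) (.nd (nat_lit 0xa07080c080) vV_5_7_688 (.nd (nat_lit 0xa060c0c000) vV_5_7_686 (.nd (nat_lit 0xa060c08080) vV_5_7_685 .lf .lf) (.nd (nat_lit 0xa070808100) vV_5_7_687 .lf .lf)) (.nd (nat_lit 0xa070a08080) vV_5_7_690 (.nd (nat_lit 0xa070810000) vV_5_7_689 .lf .lf) .lf))) (.nd (nat_lit 0xa08080c000) vV_5_7_698 (.nd (nat_lit 0xa080608100) vV_5_7_695 (.nd (nat_lit 0xa070c08000) vV_5_7_693 (.nd (nat_lit 0xa070c04080)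 vV_5_7_692 .lf .lf) (.nd (nat_lit 0xa070e04000) vV_5_7_694 .lf .lf)) (.nd (nat_lit 0xa080808080) vV_5_7_697 (.nd (nat_lit 0xa08060c080) vV_5_7_696 .lf .lf) .lf)) (.nd (nat_lit 0xa080e00000) vV_5_7_702 (.nd (nat_lit 0xa080a08000) vV_5_7_700 (.nd (nat_lit 0xa080a04080) vV_5_7_699 .lf .lf) (.nd (nat_lit 0xa080c04000) vV_5_7_701 .lf .lf)) (.nd (nat_lit 0xa090608080) vV_5_7_704 (.nd (nat_lit 0xa090408100) vV_5_7_703 .lf .lf) .lf)))) (.nd (nat_lit 0xa0c0404000) vV_5_7_719 (.nd (nat_lit 0xa0a0608000) vV_5_7_712 (.nd (nat_lit 0xa090c00000) vV_5_7_709 (.nd (nat_lit 0xa090808000) vV_5_7_707 (.nd (nat_lit 0xa090804080) vV_5_7_706 .lf .lf) (.nd (nat_lit 0xa090a04000) vV_5_7_708 .lf .lf)) (.nd (nat_lit 0xa0a0604080) vV_5_7_711 (.nd (nat_lit 0xa0a0408080) vV_5_7_710 .lf .lf) .lf)) (.nd (nat_lit 0xa0b0408000) vV_5_7_716 (.nd (nat_lit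 0xa0a0a00000) vV_5_7_714 (.nd (nat_lit 0xa0a0804000) vV_5_7_713 .lf .lf) (.nd (nat_lit 0xa0b0404080) vV_5_7_715 .lf .lf)) (.nd (nat_lit 0xa0b0800000) vV_5_7_718 (.nd (nat_lit 0xa0b0604000) vV_5_7_717 .lf .lf) .lf))) (.nd (nat_lit 0xa850810080) vV_5_7_726 (.nd (nat_lit 0xa0e0200000) vV_5_7_723 (.nd (nat_lit 0xa0d0204000) vV_5_7_721 (.nd (nat_lit 0xa0c0600000) vV_5_7_720 .lf .lf) (.nd (nat_lit 0xa0d0400000) vV_5_7_722 .lf .lf)) (.nd (nat_lit 0xa840810100) vV_5_7_725 (.nd (nat_lit 0xa0f0000000) vV_5_7_724 .lf .lf) .lf)) (.nd (nat_lit 0xa860810000) vV_5_7_730 (.nd (nat_lit 0xa860808100) vV_5_7_728 (.nd (nat_lit 0xa850a0c080) vV_5_7_727 .lf .lf) (.nd (nat_lit 0xa86080c080) vV_5_7_729 .lf .lf)) (.nd (nat_lit 0xa860a0c000) vV_5_7_732 (.nd (nat_lit 0xa860a08080) vV_5_7_731 .lf .lf) .lf))))) (.nd (nat_lit 0xa8c0204000) vV_5_7_761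 (.nd (nat_lit 0xa880a04000) vV_5_7_747 (.nd (nat_lit 0xa870c04000) vV_5_7_740 (.nd (nat_lit 0xa87080c000) vV_5_7_737 (.nd (nat_lit 0xa87060c080) vV_5_7_735 (.nd (nat_lit 0xa870608100) vV_5_7_734 .lf .lf) (.nd (nat_lit 0xa870808080) vV_5_7_736 .lf .lf)) (.nd (nat_lit 0xa870a08000) vV_5_7_739 (.nd (nat_lit 0xa870a04080) vV_5_7_738 .lf .lf) .lf)) (.nd (nat_lit 0xa88060c000) vV_5_7_744 (.nd (nat_lit 0xa880408100) vV_5_7_742 (.nd (nat_lit 0xa870e00000) vV_5_7_741 .lf .lf) (.nd (nat_lit 0xa880608080) vV_5_7_743 .lf .lf)) (.nd (nat_lit 0xa880808000) vV_5_7_746 (.nd (nat_lit 0xa880804080) vV_5_7_745 .lf .lf) .lf))) (.nd (nat_lit 0xa8a0404080) vV_5_7_754 (.nd (nat_lit 0xa890608000) vV_5_7_751 (.nd (nat_lit 0xa890408080) vV_5_7_749 (.nd (nat_lit 0xa880c00000) vV_5_7_748 .lf .lf) (.nd (nat_lit 0xa890604080) vV_5_7_750 .lf .lf))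 (.nd (nat_lit 0xa890a00000) vV_5_7_753 (.nd (nat_lit 0xa890804000) vV_5_7_752 .lf .lf) .lf)) (.nd (nat_lit 0xa8b0204080) vV_5_7_758 (.nd (nat_lit 0xa8a0604000) vV_5_7_756 (.nd (nat_lit 0xa8a0408000) vV_5_7_755 .lf .lf) (.nd (nat_lit 0xa8a0800000) vV_5_7_757 .lf .lf)) (.nd (nat_lit 0xa8b0600000) vV_5_7_760 (.nd (nat_lit 0xa8b0404000) vV_5_7_759 .lf .lf) .lf)))) (.nd (nat_lit 0xb060c04000) vV_5_7_775 (.nd (nat_lit 0xb050810000) vV_5_7_768 (.nd (nat_lit 0xb040810080) vV_5_7_765 (.nd (nat_lit 0xa8d0200000) vV_5_7_763 (.nd (nat_lit 0xa8c0400000) vV_5_7_762 .lf .lf) (.nd (nat_lit 0xa8e0000000) vV_5_7_764 .lf .lf)) (.nd (nat_lit 0xb05080c080) vV_5_7_767 (.nd (nat_lit 0xb050808100) vV_5_7_766 .lf .lf) .lf)) (.nd (nat_lit 0xb06080c000) vV_5_7_772 (.nd (nat_lit 0xb060608100) vV_5_7_770 (.nd (nat_lit 0xb050a08080) vV_5_7_769 .lf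 .lf) (.nd (nat_lit 0xb060808080) vV_5_7_771 .lf .lf)) (.nd (nat_lit 0xb060a08000) vV_5_7_774 (.nd (nat_lit 0xb060a04080) vV_5_7_773 .lf .lf) .lf))) (.nd (nat_lit 0xb070c00000) vV_5_7_782 (.nd (nat_lit 0xb070804080) vV_5_7_779 (.nd (nat_lit 0xb070608080) vV_5_7_777 (.nd (nat_lit 0xb070408100) vV_5_7_776 .lf .lf) (.nd (nat_lit 0xb07060c000) vV_5_7_778 .lf .lf)) (.nd (nat_lit 0xb070a04000) vV_5_7_781 (.nd (nat_lit 0xb070808000) vV_5_7_780 .lf .lf) .lf)) (.nd (nat_lit 0xb080804000) vV_5_7_786 (.nd (nat_lit 0xb080604080) vV_5_7_784 (.nd (nat_lit 0xb080408080) vV_5_7_783 .lf .lf) (.nd (nat_lit 0xb080608000) vV_5_7_785 .lf .lf)) (.nd (nat_lit 0xb090404080) vV_5_7_788 (.nd (nat_lit 0xb080a00000) vV_5_7_787 .lf .lf) .lf)))))) (.nd (nat_lit 0xc0a0200000) vV_5_7_845 (.nd (nat_lit 0xb880408000) vV_5_7_817 (.nd (nat_lit 0xb850a08000)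 vV_5_7_803 (.nd (nat_lit 0xb0c0200000) vV_5_7_796 (.nd (nat_lit 0xb0a0600000) vV_5_7_793 (.nd (nat_lit 0xb090800000) vV_5_7_791 (.nd (nat_lit 0xb090604000) vV_5_7_790 .lf .lf) (.nd (nat_lit 0xb0a0404000) vV_5_7_792 .lf .lf)) (.nd (nat_lit 0xb0b0400000) vV_5_7_795 (.nd (nat_lit 0xb0b0204000) vV_5_7_794 .lf .lf) .lf)) (.nd (nat_lit 0xb850808080) vV_5_7_800 (.nd (nat_lit 0xb840808100) vV_5_7_798 (.nd (nat_lit 0xb0d0000000) vV_5_7_797 .lf .lf) (.nd (nat_lit 0xb840810000) vV_5_7_799 .lf .lf)) (.nd (nat_lit 0xb850a04080) vV_5_7_802 (.nd (nat_lit 0xb85080c000) vV_5_7_801 .lf .lf) .lf))) (.nd (nat_lit 0xb860c00000) vV_5_7_810 (.nd (nat_lit 0xb860804080) vV_5_7_807 (.nd (nat_lit 0xb860608080) vV_5_7_805 (.nd (nat_lit 0xb860408100) vV_5_7_804 .lf .lf) (.nd (nat_lit 0xb86060c000) vV_5_7_806 .lf .lf)) (.nd (nat_lit 0xb860a04000)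 vV_5_7_809 (.nd (nat_lit 0xb860808000) vV_5_7_808 .lf .lf) .lf)) (.nd (nat_lit 0xb870804000) vV_5_7_814 (.nd (nat_lit 0xb870604080) vV_5_7_812 (.nd (nat_lit 0xb870408080) vV_5_7_811 .lf .lf) (.nd (nat_lit 0xb870608000) vV_5_7_813 .lf .lf)) (.nd (nat_lit 0xb880404080) vV_5_7_816 (.nd (nat_lit 0xb870a00000) vV_5_7_815 .lf .lf) .lf)))) (.nd (nat_lit 0xc050808000) vV_5_7_831 (.nd (nat_lit 0xb8b0200000) vV_5_7_824 (.nd (nat_lit 0xb890600000) vV_5_7_821 (.nd (nat_lit 0xb880800000) vV_5_7_819 (.nd (nat_lit 0xb880604000) vV_5_7_818 .lf .lf) (.nd (nat_lit 0xb890404000) vV_5_7_820 .lf .lf)) (.nd (nat_lit 0xb8a0400000) vV_5_7_823 (.nd (nat_lit 0xb8a0204000) vV_5_7_822 .lf .lf) .lf)) (.nd (nat_lit 0xc050408100) vV_5_7_828 (.nd (nat_lit 0xc040808080) vV_5_7_826 (.nd (nat_lit 0xb8c0000000) vV_5_7_825 .lf .lf) (.nd (nat_lit 0xc04080c000)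 vV_5_7_827 .lf .lf)) (.nd (nat_lit 0xc050804080) vV_5_7_830 (.nd (nat_lit 0xc050608080) vV_5_7_829 .lf .lf) .lf))) (.nd (nat_lit 0xc070408000) vV_5_7_838 (.nd (nat_lit 0xc060804000) vV_5_7_835 (.nd (nat_lit 0xc060408080) vV_5_7_833 (.nd (nat_lit 0xc050a04000) vV_5_7_832 .lf .lf) (.nd (nat_lit 0xc060608000) vV_5_7_834 .lf .lf)) (.nd (nat_lit 0xc070404080) vV_5_7_837 (.nd (nat_lit 0xc060a00000) vV_5_7_836 .lf .lf) .lf)) (.nd (nat_lit 0xc080600000) vV_5_7_842 (.nd (nat_lit 0xc070800000) vV_5_7_840 (.nd (nat_lit 0xc070604000) vV_5_7_839 .lf .lf) (.nd (nat_lit 0xc080404000) vV_5_7_841 .lf .lf)) (.nd (nat_lit 0xc090400000) vV_5_7_844 (.nd (nat_lit 0xc090204000) vV_5_7_843 .lf .lf) .lf))))) (.nd (nat_lit 0xd090000000) vV_5_7_873 (.nd (nat_lit 0xc880400000) vV_5_7_859 (.nd (nat_lit 0xc850804000) vV_5_7_852 (.nd (nat_lit 0xc850408080)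 vV_5_7_849 (.nd (nat_lit 0xc840408100) vV_5_7_847 (.nd (nat_lit 0xc0b0000000) vV_5_7_846 .lf .lf) (.nd (nat_lit 0xc840808000) vV_5_7_848 .lf .lf)) (.nd (nat_lit 0xc850608000) vV_5_7_851 (.nd (nat_lit 0xc850604080) vV_5_7_850 .lf .lf) .lf)) (.nd (nat_lit 0xc870404000) vV_5_7_856 (.nd (nat_lit 0xc860604000) vV_5_7_854 (.nd (nat_lit 0xc860408000) vV_5_7_853 .lf .lf) (.nd (nat_lit 0xc860800000) vV_5_7_855 .lf .lf)) (.nd (nat_lit 0xc880204000) vV_5_7_858 (.nd (nat_lit 0xc870600000) vV_5_7_857 .lf .lf) .lf))) (.nd (nat_lit 0xd050604000) vV_5_7_866 (.nd (nat_lit 0xd040608000) vV_5_7_863 (.nd (nat_lit 0xc8a0000000) vV_5_7_861 (.nd (nat_lit 0xc890200000) vV_5_7_860 .lf .lf) (.nd (nat_lit 0xd040408080) vV_5_7_862 .lf .lf)) (.nd (nat_lit 0xd050408000) vV_5_7_865 (.nd (nat_lit 0xd040804000) vV_5_7_864 .lf .lf) .lf)) (.nd (nat_lit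 0xd070204000) vV_5_7_870 (.nd (nat_lit 0xd060404000) vV_5_7_868 (.nd (nat_lit 0xd050800000) vV_5_7_867 .lf .lf) (.nd (nat_lit 0xd060600000) vV_5_7_869 .lf .lf)) (.nd (nat_lit 0xd080200000) vV_5_7_872 (.nd (nat_lit 0xd070400000) vV_5_7_871 .lf .lf) .lf)))) (.nd (nat_lit 0xe060200000) vV_5_7_887 (.nd (nat_lit 0xd860400000) vV_5_7_880 (.nd (nat_lit 0xd840800000) vV_5_7_877 (.nd (nat_lit 0xd840408000) vV_5_7_875 (.nd (nat_lit 0xd820408100) vV_5_7_874 .lf .lf) (.nd (nat_lit 0xd840604000) vV_5_7_876 .lf .lf)) (.nd (nat_lit 0xd850600000) vV_5_7_879 (.nd (nat_lit 0xd850404000) vV_5_7_878 .lf .lf) .lf)) (.nd (nat_lit 0xe040404000) vV_5_7_884 (.nd (nat_lit 0xd880000000) vV_5_7_882 (.nd (nat_lit 0xd870200000) vV_5_7_881 .lf .lf) (.nd (nat_lit 0xe030408000) vV_5_7_883 .lf .lf)) (.nd (nat_lit 0xe050400000) vV_5_7_886 (.nd (nat_lit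 0xe040600000) vV_5_7_885 .lf .lf) .lf))) (.nd (nat_lit 0xf040200000) vV_5_7_894 (.nd (nat_lit 0xe850200000) vV_5_7_891 (.nd (nat_lit 0xe820408000) vV_5_7_889 (.nd (nat_lit 0xe070000000) vV_5_7_888 .lf .lf) (.nd (nat_lit 0xe840400000) vV_5_7_890 .lf .lf)) (.nd (nat_lit 0xf030400000) vV_5_7_893 (.nd (nat_lit 0xe860000000) vV_5_7_892 .lf .lf) .lf)) (.nd (nat_lit 0x10030000000) vV_5_7_898 (.nd (nat_lit 0xf820400000) vV_5_7_896 (.nd (nat_lit 0xf050000000) vV_5_7_895 .lf .lf) (.nd (nat_lit 0xf840000000) vV_5_7_897 .lf .lf)) (.nd (nat_lit 0x11800000000) vV_5_7_900 (.nd (nat_lit 0x10820000000) vV_5_7_899 .lf .lf) .lf)))))))))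

end Crest.Agent.R187.SN.KE
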